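import Vale.Agent.P216.H971.RList
import Vale.Agent.P216.H901.Sweep
import Vale.Agent.P216.H388.TrackR

/-!
# P216-B, B45 [RHO], topology: [R-D2], the polygonal map and the path fibration `PF x₀`

`StRD`: the statement of [R-D]. `ptrivMap`: `TrivMap` for 456's `ptrivOf`. `mooreMap`: `MooreMap`.
-/

set_option linter.unusedVariables false

open Set BoundedContinuousFunction

namespace Vale.Agent.P216.H971

open Vale.Agent.P216.AS Vale.Agent.P216.H901 Vale.Agent.P216.PS Vale.Agent.P216.MV337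
open Vale.Agent.P216.B64 Vale.Agent.P216.H456 Vale.Agent.P216.H388

/-- **[R-D]** -/
def StRD : Prop := ∀ (m : ℕ), 3 ≤ m → ∀ (M : Type) [MetricSpace M] [CompactSpace M] (ρ : ℝ),
  0 < ρ → LS.UniqSeg M ρ → Nonempty (M ≃ₜ Sph (m + 1)) →
  ∃ (x₀ : M) (C : Caps (m + 1) M x₀) (ℓ : ℝ) (Tp Tm : M → ℝ → M) (hp : MV337.Tr C.Dp x₀ ℓ Tp)
    (hm : MV337.Tr C.Dm x₀ ℓ Tm) (f : C(M, M)) (φ : ℝ → ℝ) (R : (ℝ →ᵇ M) → (ℝ →ᵇ M))
    (δ lam η : ℝ), f x₀ = x₀ ∧ TrivMap (trivOf C hp hm) f φ R R ∧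
    TrivMap (ptrivOf C hp hm) f φ R R ∧ η ≤ ρ / 8 ∧ MooreMap f φ R δ lam η

/-! ### Reflection of the coordinates -/

theorem cuM_enc' {E E' : Type} [MetricSpace E] [MetricSpace E'] (g : E → E') (n : ℕ) (e : E)
    (y : Fin n → ℝ) : H901.cuM g n (enc n e y) = enc n (g e) y := by
  induction n with
  | zero => rfl
  | succ n ih =>
    change (H901.cuM g n (enc n e (Fin.init y)), y (Fin.last n)) = _
    rw [ih]
    rfl

theorem rlC_enc {E : Type} [MetricSpace E] {m : ℕ} (e : E) (y : Fin (m + 1) → ℝ) :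
    rlC (enc (m + 1) e y) = enc (m + 1) e (rf (Fin.last m) y) := by
  change (enc m e (Fin.init y), 1 - y (Fin.last m)) =
    (enc m e (Fin.init (rf (Fin.last m) y)), rf (Fin.last m) y (Fin.last m))
  have e1 : Fin.init (rf (Fin.last m) y) = Fin.init y := by
    funext i
    unfold Fin.init rf
    exact Function.update_of_ne (Fin.castSucc_lt_last i).ne _ _
  have e2 : rf (Fin.last m) y (Fin.last m) = 1 - y (Fin.last m) := by
    unfold rf
    exact Function.update_self _ _ _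
  rw [e1, e2]

/-! ### Closeness -/

section close

variable {M : Type} [MetricSpace M] [CompactSpace M] {x₀ : M} {D : Set M} {ℓ t ε r ρ η δ : ℝ}
  {T : M → ℝ → M} {f : M → M} {w : ℝ →ᵇ M}

/-- The time of `lcut (apx w)`. -/
noncomputable def tq (ℓ κ U l : ℝ) : ℝ := min (l * U) ℓ + κ * max 0 (l * U - ℓ)

/-- The time of `apx (lcut w)`. -/
noncomputable def tp' (κ U l : ℝ) : ℝ := κ * (l * U)

theorem ret_P (hℓ : 0 ≤ ℓ) (ht : 0 ≤ t) (h : Mo f ρ η δ) :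
    Ret (lvl η δ t + ℓ) (lvl η δ (t + ℓ)) (tq ℓ (η / δ) (t + ℓ + δ)) (tp' (η / δ) (t + ℓ + δ)) := by
  have hδ := h.δ0
  have hκ : 0 < η / δ := div_pos h.η0 hδ
  have e : η / δ * δ = η := div_mul_cancel₀ _ hδ.ne'
  have hU : 0 < t + ℓ + δ := by linarith
  have e1 : tq ℓ (η / δ) (t + ℓ + δ) 1 = lvl η δ t + ℓ := by
    unfold tq lvl
    rw [one_mul, min_eq_right (by linarith), max_eq_right (by linarith)]
    have : t + ℓ + δ - ℓ = t + δ := by ring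
    rw [this, mul_add, e]
    ring
  have e2 : tp' (η / δ) (t + ℓ + δ) 1 = lvl η δ (t + ℓ) := by
    unfold tp' lvl
    rw [one_mul, mul_add, e]
  have mono1 : ∀ l l', l ≤ l' → tq ℓ (η / δ) (t + ℓ + δ) l ≤ tq ℓ (η / δ) (t + ℓ + δ) l' := by
    intro l l' hl
    have h1 : l * (t + ℓ + δ) ≤ l' * (t + ℓ + δ) := mul_le_mul_of_nonneg_right hl hU.le
    unfold tq
    exact add_le_add (min_le_min_right _ h1)
      (mul_le_mul_of_nonneg_left (max_le_max_left _ (by linarith)) hκ.le)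
  have e3 : tq ℓ (η / δ) (t + ℓ + δ) 0 = 0 := by
    unfold tq
    rw [zero_mul, min_eq_left hℓ, max_eq_left (by linarith), mul_zero, add_zero]
  refine ⟨?_, ?_, e3, ?_, e1, e2, fun l hl => ?_, fun l hl => ?_⟩
  · unfold tq
    fun_prop
  · unfold tp'
    fun_prop
  · unfold tp'
    rw [zero_mul, mul_zero]
  · constructor
    · rw [← e3]
      exact mono1 _ _ hl.1
    · rw [← e1]
      exact mono1 _ _ hl.2
  · constructor
    · exact mul_nonneg hκ.le (mul_nonneg hl.1 hU.le)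
    · rw [← e2]
      unfold tp'
      exact mul_le_mul_of_nonneg_left (mul_le_mul_of_nonneg_right hl.2 hU.le) hκ.le

theorem cls_P (hT : MV337.Tr D x₀ ℓ T) (hfD : MapsTo f D D)
    (hε : ∀ x ∈ D, ∀ u, dist (f (T x u)) (T (f x) u) ≤ ε) (h : Mo f ρ η δ) (hε0 : 0 ≤ ε)
    (hr : 4 * η + ε ≤ r) (ht : 0 ≤ t) (hw : w ∈ PFD x₀ D t)
    (hRw : apx f δ η w ∈ PFD x₀ D (lvl η δ t)) :
    Cls r (tq ℓ (η / δ) (t + ℓ + δ)) (tp' (η / δ) (t + ℓ + δ)) (lcut T ℓ (apx f δ η w))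
      (apx f δ η (lcut T ℓ w)) := by
  have hδ := h.δ0
  have hη := h.η0
  have hℓ := hT.nonneg
  have hκ : 0 < η / δ := div_pos hη hδ
  intro l hl
  obtain ⟨u, hu⟩ : ∃ u, u = l * (t + ℓ + δ) := ⟨_, rfl⟩
  have hu0 : 0 ≤ u := by
    rw [hu]
    exact mul_nonneg hl.1 (by linarith)
  have c1 := h.apx_close (lcut_mem hT ht hw).1 u
  have e1 : tp' (η / δ) (t + ℓ + δ) l = η / δ * u := by
    unfold tp'
    rw [hu]
  have e2 : tq ℓ (η / δ) (t + ℓ + δ) l = min u ℓ + η / δ * max 0 (u - ℓ) := by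
    unfold tq
    rw [hu]
  rw [e1, e2]
  rw [lcut_apply hT hw] at c1
  rw [lcut_apply hT hRw, h.apx_zero hw.1.1]
  have f0 : T (f (w 0)) 0 = f (w 0) := hT.left _ (hfD hw.2) 0 le_rfl
  rcases le_total u ℓ with h1 | h1
  · rw [min_eq_left h1, max_eq_left (by linarith), mul_zero, add_zero, lj_left h1]
    rw [lj_left h1] at c1
    have c2 := hε (w 0) hw.2 (ℓ - u)
    have := dist_triangle (apx f δ η (lcut T ℓ w) (η / δ * u)) (f (T (w 0) (ℓ - u)))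
      (T (f (w 0)) (ℓ - u))
    linarith
  · rw [min_eq_right h1, max_eq_right (by linarith)]
    rw [lj_right (hT.left _ hw.2 0 le_rfl).symm h1] at c1
    have h0 : apx f δ η w 0 = T (f (w 0)) 0 := by rw [f0, h.apx_zero hw.1.1]
    rw [lj_right h0 (by
      have := mul_nonneg hκ.le (sub_nonneg.2 h1)
      linarith), add_sub_cancel_left]
    have c2 := h.apx_close hw.1.1 (u - ℓ)
    rw [dist_comm] at c2
    have := dist_triangle (apx f δ η (lcut T ℓ w) (η / δ * u)) (f (w (u - ℓ)))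
      (apx f δ η w (η / δ * (u - ℓ)))
    linarith

theorem apx_PFD (hfD : MapsTo f D D) (hf0 : f x₀ = x₀) (h : Mo f ρ η δ) (hw : w ∈ PFD x₀ D t) :
    apx f δ η w ∈ PFD x₀ D (lvl η δ t) := by
  have h1 := h.apx_P (mem_PF_iff.1 hw.1)
  rw [hf0] at h1
  exact ⟨P_subset_PF h1, by rw [h.apx_zero hw.1.1]; exact hfD hw.2⟩

theorem cont_apx_PFD (h : Mo f ρ η δ) (ht : 0 ≤ t) :
    ContinuousOn (apx f δ η) (PFD x₀ D t) :=
  h.apx_cont ht continuousOn_id fun w hw => PF_subset_PP hw.1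

/-- The two maps on `PFD x₀ D t`. -/
theorem data_P (hT : MV337.Tr D x₀ ℓ T) (hfD : MapsTo f D D) (hf0 : f x₀ = x₀) (h : Mo f ρ η δ)
    (ht : 0 ≤ t) :
    ContinuousOn (fun w => lcut T ℓ (apx f δ η w)) (PFD x₀ D t) ∧
    ContinuousOn (fun w => apx f δ η (lcut T ℓ w)) (PFD x₀ D t) ∧
    (∀ w ∈ PFD x₀ D t, lcut T ℓ (apx f δ η w) ∈ P x₀ x₀ (lvl η δ t + ℓ)) ∧
    ∀ w ∈ PFD x₀ D t, apx f δ η (lcut T ℓ w) ∈ P x₀ x₀ (lvl η δ (t + ℓ)) := by
  have hℓ := hT.nonneg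
  have hl : 0 ≤ lvl η δ t := ht.trans (h.le_lvl ht)
  refine ⟨?_, ?_, ?_, ?_⟩
  · exact continuousOn_lcut' hT hl (cont_apx_PFD h ht) fun w hw => apx_PFD hfD hf0 h hw
  · exact h.apx_cont (s := t + ℓ) (by linarith) (continuousOn_lcut hT ht) fun w hw =>
      P_subset_PP (lcut_mem hT ht hw)
  · exact fun w hw => lcut_mem hT hl (apx_PFD hfD hf0 h hw)
  · intro w hw
    have := h.apx_P (lcut_mem hT ht hw)
    rwa [hf0] at this

end close

/-! ### The map of the trivialised path fibration -/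

section map

variable {M : Type} [MetricSpace M] [CompactSpace M] {x₀ : M} {ℓ ε r ρ η δ : ℝ} {m : ℕ}

/-- **[R-D2]** -/
theorem ptrivMap (C : RCaps (m + 1) M x₀ (Fin.last m)) {Tp Tm : M → ℝ → M}
    (hp : MV337.Tr C.Dp x₀ ℓ Tp) (hm : MV337.Tr C.Dm x₀ ℓ Tm)
    (hpε : ∀ x ∈ C.Dp, ∀ u, dist (C.f (Tp x u)) (Tp (C.f x) u) ≤ ε)
    (hmε : ∀ x ∈ C.Dm, ∀ u, dist (C.f (Tm x u)) (Tm (C.f x) u) ≤ ε) (hU : LS.UniqSeg M ρ)
    (h : Mo C.f ρ η δ) (hε0 : 0 ≤ ε) (hr : 4 * η + ε ≤ r) (hrρ : r < ρ) :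
    TrivMap (ptrivOf C.toCaps hp hm) C.f (lvl η δ) (apx C.f δ η) (apx C.f δ η) := by
  have hδ := h.δ0
  have hη := h.η0
  have hℓ := hp.nonneg
  have hr0 : 0 < r := by linarith
  have hl : ∀ t, 0 ≤ t → 0 ≤ lvl η δ t := fun t ht => ht.trans (h.le_lvl ht)
  have hfp : MapsTo C.f C.Dp C.Dp := fun x hx => (C.f_Dp x).2 hx
  have hfm : MapsTo C.f C.Dm C.Dm := fun x hx => (C.f_Dm x).2 hx
  refine ⟨fun t ht => ht.trans_le (h.le_lvl ht.le), fun s t _ hst => h.lvl_mono hst, ?_, ?_, ?_,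
    hfp, hfm, ?_, ?_⟩
  · intro t ht
    refine map_of_cont (isCompact_PF x₀ ht.le) (h.apx_cont ht.le continuousOn_id
      fun w hw => PF_subset_PP hw) fun w hw => ?_
    have h1 := h.apx_P (mem_PF_iff.1 hw)
    rw [C.f_x₀] at h1
    exact P_subset_PF h1
  · intro t ht
    refine map_of_cont (isCompact_P _ _ _) (h.apx_cont ht.le continuousOn_id
      fun w hw => P_subset_PP hw) fun w hw => ?_
    have h1 := h.apx_P hw
    rwa [C.f_x₀] at h1
  · exact fun t ht w hw => h.apx_zero hw.1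
  · intro t ht
    obtain ⟨c1, c2, c3, c4⟩ := data_P hm hfm C.f_x₀ h ht.le
    refine ⟨lvl η δ t + ℓ + lvl η δ (t + ℓ) + r, ?_, ?_, ?_⟩
    · have := hl (t + ℓ) (by linarith)
      linarith
    · have := hl t ht.le
      linarith
    · exact hp_sweep (a := fun _ => x₀) (b := fun _ => x₀) hU hr0 hrρ
        (isCompact_ovrP C.closed_m ht.le) (empty_subset _) (ret_P hℓ ht.le h) c1 c2 c3 c4
        (fun w hw => cls_P hm hfm hmε h hε0 hr ht.le hw (apx_PFD hfm C.f_x₀ h hw))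
        (fun w hw => subset_rfl) fun w hw => hw.elim
  · intro t ht
    obtain ⟨c1, c2, c3, c4⟩ := data_P hp hfp C.f_x₀ h ht.le
    have hret := ret_P (t := t) hℓ ht.le h
    have hcls : ∀ w ∈ PFD x₀ C.Dp t, Cls r (tq ℓ (η / δ) (t + ℓ + δ)) (tp' (η / δ) (t + ℓ + δ))
        (lcut Tp ℓ (apx C.f δ η w)) (apx C.f δ η (lcut Tp ℓ w)) := fun w hw =>
      cls_P hp hfp hpε h hε0 hr ht.le hw (apx_PFD hfp C.f_x₀ h hw)
    refine ⟨lvl η δ t + ℓ + lvl η δ (t + ℓ) + r, ?_, ?_, ?_⟩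
    · have := hl (t + ℓ) (by linarith)
      linarith
    · have := hl t ht.le
      linarith
    have hmem : ∀ l ∈ Icc (0 : ℝ) 1, ∀ w ∈ PFD x₀ C.Dp t,
        swp r (tq ℓ (η / δ) (t + ℓ + δ)) (tp' (η / δ) (t + ℓ + δ)) (lcut Tp ℓ (apx C.f δ η w))
          (apx C.f δ η (lcut Tp ℓ w)) l ∈ P x₀ x₀ (lvl η δ t + ℓ + lvl η δ (t + ℓ) + r) :=
      fun l hl w hw => swp_mem hU hr0 hrρ hret (c3 w hw) (c4 w hw) (hcls w hw) hl
    refine hp_of_cont (isCompact_ovrP C.closed_p ht.le) (F := fun p => enc (m + 1)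
      (swp r (tq ℓ (η / δ) (t + ℓ + δ)) (tp' (η / δ) (t + ℓ + δ)) (lcut Tp ℓ (apx C.f δ η p.2))
        (apx C.f δ η (lcut Tp ℓ p.2)) p.1) (C.φ (C.f (p.2 0)))) ?_ ?_ ?_ ?_ ?_
    · refine enc_cont (m + 1) ?_ ?_
      · exact swp_cont (a := fun _ => x₀) (b := fun _ => x₀) hU hr0 hrρ hret
          (c1.comp continuousOn_snd fun p hp => hp.2) (c2.comp continuousOn_snd fun p hp => hp.2)
          continuousOn_fst (fun p hp => hp.1) (fun p hp => c3 _ hp.2) (fun p hp => c4 _ hp.2)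
          fun p hp => hcls _ hp.2
      · exact C.φ_cont.comp (C.f_cont.comp_continuousOn (continuousOn_eval continuousOn_snd
          continuousOn_const)) fun p hp => hfp hp.2.2
    · intro l hl w hw
      rw [mem_cub, dec1_enc, dec2_enc]
      exact ⟨hmem l hl w hw, C.φ_mem _ (hfp hw.2)⟩
    · intro l hl w hw
      have hw' : w ∈ PFD x₀ C.Dp t := ⟨hw.1, hw.2.1⟩
      rw [mem_bdc, mem_cub, dec1_enc, dec2_enc]
      exact ⟨⟨hmem l hl w hw', C.φ_mem _ (hfp hw.2.1)⟩, (C.bdry _ (hfp hw.2.1)).1 (hfm hw.2.2)⟩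
    · intro w hw
      show enc (m + 1) (swp _ _ _ _ _ 0) _ = enc (m + 1) (lcut Tp ℓ (apx C.f δ η w))
        (C.φ (apx C.f δ η w 0))
      rw [swp_zero, h.apx_zero hw.1.1]
    · intro w hw
      show enc (m + 1) (swp _ _ _ _ _ 1) _ = rlC (H901.cuM (apx C.f δ η) (m + 1)
        (enc (m + 1) (lcut Tp ℓ w) (C.φ (w 0))))
      rw [swp_one hU hr0 hrρ hret (c3 w hw) (c4 w hw), cuM_enc', rlC_enc, C.φ_f]

/-- Exact durations at the multiples of `δ`. -/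
theorem apx_FL_N {f : M → M} (h : Mo f ρ η δ) (N : ℕ) {w : ℝ →ᵇ M} (hw : w ∈ FL M (N * δ)) :
    apx f δ η w ∈ FL M (η / δ * (N * δ)) := by
  have hδ := h.δ0
  have hη := h.η0
  have e : η / δ * (N * δ) = N * η := by field_simp
  rw [e]
  have h1 := h.apx_FL hw
  refine ⟨h1.1, h1.2.1, fun u hu => ?_⟩
  rw [h.apx_apply hw.1, h.apx_apply hw.1, apf_zero]
  have h2 : (N : ℝ) ≤ ⌊u / η⌋ := by
    have : (N : ℤ) ≤ ⌊u / η⌋ := by
      rw [Int.le_floor, le_div_iff₀ hη]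
      exact_mod_cast hu
    exact_mod_cast this
  have h3 : (N : ℝ) * δ ≤ ⌊u / η⌋ * δ := mul_le_mul_of_nonneg_right h2 hδ.le
  unfold apf
  rw [hw.2.2 _ h3, hw.2.2 ((⌊u / η⌋ + 1) * δ) (by linarith), LS.seg_self]

/-- **`MooreMap`** -/
theorem mooreMap {f : M → M} (h : Mo f ρ η δ) :
    MooreMap f (lvl η δ) (apx f δ η) δ (η / δ) (2 * η) where
  δ_pos := h.δ0
  lam_pos := div_pos h.η0 h.δ0
  φ_pos t ht := ht.trans_le (h.le_lvl ht.le)
  φ_le t ht := by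
    unfold lvl
    linarith [h.η0]
  map t ht := map_of_cont (isCompact_FL ht.le) (h.apx_cont ht.le continuousOn_id
    fun w hw => FL_subset_PP hw) fun w hw => h.apx_FL hw
  dur N _ w hw := apx_FL_N h N hw
  close t ht w hw u := h.apx_close hw.1 u

end map

end Vale.Agent.P216.H971
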