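import Vale.Agent.P216.LS.Maps

/-!
# Self-maps of `M` act on the energy sublevels of the loop space up to equivariant homotopy

`M` compact with unique segments of length `< ρ`, `f : C(M, M)`.
* `exists_approx`: for every `s`, `ε` there is a continuous map `R : XE M s → XE M s'` commuting with
  the rotation by `1 / N` and with the reversal, and `ε`-close to `g ↦ f ∘ g`;
* `exists_homotopy`: two maps into energy sublevels that commute with the rotation by `1 / N` and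
  are `ρ / 4`-close are homotopic through such maps.
-/

open Set Filter Topology

namespace Vale.Agent.P216.H971

open L250 LS

variable {M : Type*} [MetricSpace M]

/-! ### Polygons with short steps -/

section Step

variable {K : ℕ} [NeZero K] {ρ r : ℝ} {x : ZMod K → M}

theorem E_le_of_step (hx : ∀ i, dist (x i) (x (i + 1)) ≤ r) : E x ≤ (K * r) ^ 2 := by
  have hr : 0 ≤ r := dist_nonneg.trans (hx 0)
  have h1 : ∑ i : ZMod K, dist (x i) (x (i + 1)) ^ 2 ≤ ∑ _i : ZMod K, r ^ 2 :=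
    Finset.sum_le_sum fun i _ => pow_le_pow_left₀ dist_nonneg (hx i) 2
  rw [Finset.sum_const, Finset.card_univ, ZMod.card, nsmul_eq_mul] at h1
  calc E x = K * ∑ i, dist (x i) (x (i + 1)) ^ 2 := rfl
    _ ≤ K * (K * r ^ 2) := mul_le_mul_of_nonneg_left h1 (Nat.cast_nonneg K)
    _ = (K * r) ^ 2 := by ring

theorem fn_itpL' (h : UniqSeg M ρ) (hx : ∀ i, dist (x i) (x (i + 1)) < ρ) (t : ℝ) :
    fn (itpL x) t = itp x t := by
  have h1 := HasE.continuous' (hasE_itp h hx)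
  rw [itpL, dif_pos h1, fn_ofFn]

theorem itpL_mem' (h : UniqSeg M ρ) (hx : ∀ i, dist (x i) (x (i + 1)) < ρ) :
    itpL x ∈ XE M (K * ρ) := by
  have h1 : fn (itpL x) = itp x := funext (fn_itpL' h hx)
  rw [mem_XE, h1]
  exact (hasE_itp h hx).mono (E_le_of_step fun i => (hx i).le)

theorem itpL_pshift' (h : UniqSeg M ρ) (hx : ∀ i, dist (x i) (x (i + 1)) < ρ) (j : ℤ) :
    itpL (pshift (j : ZMod K) x) = rot (j / K) (itpL x) := by
  refine ext_fn fun t => ?_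
  have hx' : ∀ i, dist (pshift (j : ZMod K) x i) (pshift (j : ZMod K) x (i + 1)) < ρ := fun i => by
    rw [pshift_apply, pshift_apply, add_right_comm]
    exact hx _
  rw [fn_itpL' h hx', itp_pshift, fn_rot, fn_itpL' h hx]

theorem itpL_prev' (h : UniqSeg M ρ) (hx : ∀ i, dist (x i) (x (i + 1)) < ρ) :
    itpL (prev x) = L250.rev (itpL x) := by
  refine ext_fn fun t => ?_
  have hx' : ∀ i, dist (prev x i) (prev x (i + 1)) < ρ := fun i => by
    rw [prev_apply, prev_apply, dist_comm]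
    have := hx (-(i + 1))
    rwa [show -(i + 1) + 1 = -i by ring] at this
  rw [fn_itpL' h hx', itp_prev h hx, fn_rev, fn_itpL' h hx]

theorem continuousOn_itpL' [CompactSpace M] (h : UniqSeg M ρ) (hρ : 0 < ρ) {T : Type*}
    [TopologicalSpace T] {S : Set T} {X : T → ZMod K → M} (hc : ∀ i, ContinuousOn (fun a => X a i) S)
    (hX : ∀ a ∈ S, ∀ i, dist (X a i) (X a (i + 1)) < ρ) :
    ContinuousOn (fun a => itpL (X a)) S := by
  refine continuousOn_of_pointwise (s := K * ρ) (by positivity)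
    (fun a ha => itpL_mem' h (hX a ha)) fun t => ?_
  obtain ⟨n, u, hu, rfl⟩ := exists_eq_div K t
  have h1 : ContinuousOn (fun a => seg (X a n) (X a (n + 1)) u) S :=
    ContinuousOn.seg h (hc _) (hc _) continuousOn_const (fun a ha => hX a ha _) fun _ _ => hu
  refine h1.congr fun a ha => ?_
  rw [fn_itpL' h (hX a ha), itp_apply _ n hu]

end Step

/-! ### Choice of the mesh -/

theorem exists_mesh {N : ℕ} (hN : 0 < N) (s : ℝ) {δ : ℝ} (hδ : 0 < δ) :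
    ∃ m : ℕ, 0 < m ∧ s ^ 2 < (N * m : ℕ) * δ ^ 2 := by
  obtain ⟨m, hm⟩ := exists_nat_gt (s ^ 2 / δ ^ 2)
  have hm0 : (0 : ℝ) < m := (div_nonneg (sq_nonneg s) (sq_nonneg δ)).trans_lt hm
  refine ⟨m, Nat.cast_pos.1 hm0, ?_⟩
  have h1 : s ^ 2 < m * δ ^ 2 := (div_lt_iff₀ (by positivity)).1 hm
  refine h1.trans_le (mul_le_mul_of_nonneg_right ?_ (sq_nonneg δ))
  exact_mod_cast Nat.le_mul_of_pos_left m hN

/-- Steps of loops of bounded energy are short. -/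
theorem dist_step {K : ℕ} [NeZero K] {δ s : ℝ} (hδ : 0 < δ) (hs : s ^ 2 < K * δ ^ 2) {g : LM M}
    (hg : g ∈ XE M s) (n : ℤ) {v : ℝ} (hv : v ∈ Icc (0 : ℝ) 1) :
    dist (fn g (n / K)) (fn g ((n + v) / K)) < δ := by
  have hK := cast_pos_K (K := K)
  have hK1 : (1 : ℝ) ≤ K := by exact_mod_cast NeZero.pos K
  have h2 : (n : ℝ) / K ≤ (n + v) / K := by gcongr; linarith [hv.1]
  have h3 : ((n : ℝ) + v) / K ≤ n / K + 1 := by
    rw [div_add' _ _ _ hK.ne', div_le_div_iff_of_pos_right hK]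
    linarith [hv.2]
  have h4 := HasE.holder hg h2 h3
  have h5 : ((n : ℝ) + v) / K - n / K = v / K := by ring
  rw [h5] at h4
  have h6 : v / K * s ^ 2 ≤ 1 / K * s ^ 2 := by gcongr; exact hv.2
  have h7 : (1 : ℝ) / K * s ^ 2 < δ ^ 2 := by rw [one_div, inv_mul_lt_iff₀ hK]; exact hs
  exact lt_of_pow_lt_pow_left₀ 2 hδ.le (h4.trans_lt (h6.trans_lt h7))

theorem sampleL_intCast {K : ℕ} [NeZero K] (g : LM M) (n : ℤ) :
    sampleL K g (n : ZMod K) = fn g (n / K) := sample_intCast (fn_periodic g) n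

theorem dist_sampleL {K : ℕ} [NeZero K] {δ s : ℝ} (hδ : 0 < δ) (hs : s ^ 2 < K * δ ^ 2) {g : LM M}
    (hg : g ∈ XE M s) (i : ZMod K) : dist (sampleL K g i) (sampleL K g (i + 1)) < δ := by
  obtain ⟨n, rfl⟩ : ∃ n : ℤ, (n : ZMod K) = i := ⟨(i.val : ℤ), by simp⟩
  have h1 : ((n : ZMod K) + 1) = ((n + 1 : ℤ) : ZMod K) := by push_cast; rfl
  rw [h1, sampleL_intCast, sampleL_intCast]
  have := dist_step hδ hs hg n (v := 1) ⟨zero_le_one, le_rfl⟩
  push_cast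
  exact this

theorem rot_one_div {N m : ℕ} (hN : 0 < N) (hm : 0 < m) (g : LM M) :
    rot (1 / N) g = rot (((m : ℤ) : ℝ) / ((N * m : ℕ) : ℝ)) g := by
  congr 1
  have h1 : (N : ℝ) ≠ 0 := Nat.cast_ne_zero.2 hN.ne'
  have h2 : (m : ℝ) ≠ 0 := Nat.cast_ne_zero.2 hm.ne'
  push_cast
  field_simp

/-! ### Existence of approximations -/

/-- `g ↦ f ∘ g` is approximated by continuous maps between energy sublevels. -/
theorem exists_approx [CompactSpace M] {ρ : ℝ} (hρ : 0 < ρ) (h : UniqSeg M ρ) (f : C(M, M)) {N : ℕ}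
    (hN : 0 < N) (s : ℝ) {ε : ℝ} (hε : 0 < ε) :
    ∃ s' : ℝ, 0 ≤ s' ∧ ∃ R : LM M → LM M, ContinuousOn R (XE M s) ∧
      MapsTo R (XE M s) (XE M s') ∧
      (∀ g ∈ XE M s, R (rot (1 / N) g) = rot (1 / N) (R g)) ∧
      (∀ g ∈ XE M s, R (L250.rev g) = L250.rev (R g)) ∧
      ∀ g ∈ XE M s, ∀ t, dist (fn (R g) t) (f (fn g t)) ≤ ε := by
  have hf : UniformContinuous f := CompactSpace.uniformContinuous_of_continuous f.continuous
  obtain ⟨δ, hδ, H⟩ := Metric.uniformContinuous_iff.1 hf (min ρ (ε / 2))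
    (lt_min hρ (by positivity))
  obtain ⟨m, hm, hm2⟩ := exists_mesh hN s hδ
  set K : ℕ := N * m with hK
  have hK0 : 0 < K := Nat.mul_pos hN hm
  have : NeZero K := ⟨hK0.ne'⟩
  have hstep : ∀ g ∈ XE M s, ∀ i : ZMod K,
      dist (f (sampleL K g i)) (f (sampleL K g (i + 1))) < min ρ (ε / 2) :=
    fun g hg i => H (dist_sampleL hδ hm2 hg i)
  have hstep' : ∀ g ∈ XE M s, ∀ i : ZMod K,
      dist (f (sampleL K g i)) (f (sampleL K g (i + 1))) < ρ :=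
    fun g hg i => (hstep g hg i).trans_le (min_le_left _ _)
  refine ⟨K * ρ, by positivity, fun g => itpL fun i : ZMod K => f (sampleL K g i), ?_, ?_, ?_, ?_,
    ?_⟩
  · refine continuousOn_itpL' h hρ (fun i => ?_) hstep'
    exact (f.continuous.comp ((continuous_apply i).comp continuous_sampleL)).continuousOn
  · exact fun g hg => itpL_mem' h (hstep' g hg)
  · intro g hg
    simp only
    rw [rot_one_div hN hm g, rot_one_div hN hm (itpL _), ← itpL_pshift' h (hstep' g hg),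
      sampleL_rot]
    rfl
  · intro g hg
    simp only
    rw [← itpL_prev' h (hstep' g hg), sampleL_rev]
    rfl
  · intro g hg t
    obtain ⟨n, u, hu, rfl⟩ := exists_eq_div K t
    rw [fn_itpL' h (hstep' g hg), itp_apply _ n hu]
    have h1 := hstep g hg (n : ZMod K)
    have h2 : dist (f (sampleL K g (n : ZMod K))) (f (fn g ((n + u) / K))) < min ρ (ε / 2) := by
      rw [sampleL_intCast]
      exact H (dist_step hδ hm2 hg n hu)
    refine (dist_triangle_left _ _ (f (sampleL K g (n : ZMod K)))).trans ?_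
    rw [dist_left_seg h (hstep' g hg _) hu]
    have h3 : u * dist (f (sampleL K g (n : ZMod K))) (f (sampleL K g ((n : ZMod K) + 1))) ≤
        dist (f (sampleL K g (n : ZMod K))) (f (sampleL K g ((n : ZMod K) + 1))) :=
      mul_le_of_le_one_left dist_nonneg hu.2
    have h4 := h1.trans_le (min_le_right _ _)
    have h5 := h2.trans_le (min_le_right _ _)
    linarith

/-! ### Homotopies between close maps -/

/-- The straight homotopy between two polygons. -/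
noncomputable def segP {K : ℕ} (x y : ZMod K → M) (τ : ℝ) : ZMod K → M :=
  fun i => seg (x i) (y i) τ

theorem segP_step {K : ℕ} {ρ : ℝ} (h : UniqSeg M ρ) (hρ : 0 < ρ) {x y : ZMod K → M}
    (hx : ∀ i, dist (x i) (x (i + 1)) < ρ / 4) (hxy : ∀ i, dist (x i) (y i) ≤ ρ / 4) {τ : ℝ}
    (hτ : τ ∈ Icc (0 : ℝ) 1) (i : ZMod K) : dist (segP x y τ i) (segP x y τ (i + 1)) < ρ := by
  have h1 : ∀ i, dist (x i) (segP x y τ i) ≤ ρ / 4 := fun i => by
    rw [segP, dist_left_seg h ((hxy i).trans_lt (by linarith)) hτ]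
    exact (mul_le_of_le_one_left dist_nonneg hτ.2).trans (hxy i)
  have h2 := h1 i
  have h3 := h1 (i + 1)
  have h4 := dist_triangle4 (segP x y τ i) (x i) (x (i + 1)) (segP x y τ (i + 1))
  rw [dist_comm (segP x y τ i) (x i)] at h4
  linarith [hx i]

theorem segP_pshift {K : ℕ} (x y : ZMod K → M) (τ : ℝ) (j : ZMod K) :
    segP (pshift j x) (pshift j y) τ = pshift j (segP x y τ) := rfl

/-- Two `ρ / 4`-close families of loops of bounded energy are homotopic, compatibly with the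
rotation by `1 / N`. -/
theorem exists_homotopy' [CompactSpace M] {ρ : ℝ} (hρ : 0 < ρ) (h : UniqSeg M ρ) {N : ℕ}
    (hN : 0 < N) {s₁ s₂ : ℝ} (h₁ : 0 ≤ s₁) (h₂ : 0 ≤ s₂) {T : Type*} [TopologicalSpace T]
    {S : Set T} (hS : IsClosed S) {F₁ F₂ : T → LM M} (c₁ : ContinuousOn F₁ S)
    (c₂ : ContinuousOn F₂ S) (m₁ : MapsTo F₁ S (XE M s₁)) (m₂ : MapsTo F₂ S (XE M s₂))
    (hd : ∀ a ∈ S, ∀ t, dist (fn (F₁ a) t) (fn (F₂ a) t) ≤ ρ / 4) :
    ∃ s' : ℝ, 0 ≤ s' ∧ ∃ H : ℝ → T → LM M,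
      ContinuousOn (fun q : ℝ × T => H q.1 q.2) (Icc (0 : ℝ) 1 ×ˢ S) ∧
      (∀ τ ∈ Icc (0 : ℝ) 1, MapsTo (H τ) S (XE M s')) ∧
      (∀ τ ∈ Icc (0 : ℝ) 1, ∀ a ∈ S, ∀ b ∈ S, F₁ b = rot (1 / N) (F₁ a) →
        F₂ b = rot (1 / N) (F₂ a) → H τ b = rot (1 / N) (H τ a)) ∧
      (∀ a ∈ S, H 0 a = F₁ a) ∧ ∀ a ∈ S, H 1 a = F₂ a := by
  obtain ⟨m, hm, hm2⟩ := exists_mesh hN (max s₁ s₂) (show 0 < ρ / 4 by positivity)
  set K : ℕ := N * m with hK
  have hK0 : 0 < K := Nat.mul_pos hN hm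
  have : NeZero K := ⟨hK0.ne'⟩
  have k1 : s₁ ^ 2 < K * (ρ / 4) ^ 2 :=
    (pow_le_pow_left₀ h₁ (le_max_left s₁ s₂) 2).trans_lt hm2
  have k2 : s₂ ^ 2 < K * (ρ / 4) ^ 2 :=
    (pow_le_pow_left₀ h₂ (le_max_right s₁ s₂) 2).trans_lt hm2
  have k3 : (K : ℝ) * (ρ / 4) ^ 2 ≤ K * ρ ^ 2 := by
    gcongr
    linarith
  have k1' := k1.trans_le k3
  have k2' := k2.trans_le k3
  let P : T → ℝ → ZMod K → M := fun a τ => segP (sampleL K (F₁ a)) (sampleL K (F₂ a)) τ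
  have hdP : ∀ a ∈ S, ∀ i : ZMod K, dist (sampleL K (F₁ a) i) (sampleL K (F₂ a) i) ≤ ρ / 4 := by
    intro a ha i
    obtain ⟨n, rfl⟩ : ∃ n : ℤ, (n : ZMod K) = i := ⟨(i.val : ℤ), by simp⟩
    rw [sampleL_intCast, sampleL_intCast]
    exact hd a ha _
  have hP : ∀ a ∈ S, ∀ τ ∈ Icc (0 : ℝ) 1, ∀ i, dist (P a τ i) (P a τ (i + 1)) < ρ :=
    fun a ha τ hτ i => segP_step h hρ
      (fun i => dist_sampleL (by positivity) k1 (m₁ ha) i) (hdP a ha) hτ i
  let H : ℝ → T → LM M := fun τ a => if τ ≤ 1 / 3 then MiL K (3 * τ) (F₁ a) else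
    if τ ≤ 2 / 3 then itpL (P a (3 * τ - 1)) else MiL K (3 - 3 * τ) (F₂ a)
  have H1 : ∀ τ ≤ (1 : ℝ) / 3, ∀ a, H τ a = MiL K (3 * τ) (F₁ a) := fun τ hτ a => if_pos hτ
  have H2 : ∀ τ ∈ Icc ((1 : ℝ) / 3) (2 / 3), ∀ a ∈ S, H τ a = itpL (P a (3 * τ - 1)) := by
    intro τ hτ a ha
    rcases hτ.1.eq_or_lt with h0 | h0
    · have h5 : 3 * τ = 1 := by linarith
      have h6 : P a (3 * τ - 1) = sampleL K (F₁ a) := by
        funext i
        change seg _ _ (3 * τ - 1) = _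
        rw [h5, sub_self, seg_zero]
      rw [H1 τ h0.ge, h6, h5, MiL_one h hρ k1' (m₁ ha)]
    · change (if τ ≤ 1 / 3 then _ else _) = _
      rw [if_neg (not_le.2 h0), if_pos hτ.2]
  have H3 : ∀ τ ∈ Icc ((2 : ℝ) / 3) 1, ∀ a ∈ S, H τ a = MiL K (3 - 3 * τ) (F₂ a) := by
    intro τ hτ a ha
    rcases hτ.1.eq_or_lt with h0 | h0
    · have h5 : 3 - 3 * τ = 1 := by linarith
      have h6 : P a (3 * τ - 1) = sampleL K (F₂ a) := by
        funext i
        change seg _ _ (3 * τ - 1) = _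
        rw [show 3 * τ - 1 = 1 by linarith, seg_one]
      rw [H2 τ ⟨by linarith, h0.ge⟩ a ha, h6, h5, MiL_one h hρ k2' (m₂ ha)]
    · change (if τ ≤ 1 / 3 then _ else _) = _
      rw [if_neg (not_le.2 (by linarith)), if_neg (not_le.2 h0)]
  have cases : ∀ τ ∈ Icc (0 : ℝ) 1, (τ ≤ 1 / 3) ∨ τ ∈ Icc ((1 : ℝ) / 3) (2 / 3) ∨
      τ ∈ Icc ((2 : ℝ) / 3) 1 := by
    intro τ hτ
    rcases le_total τ (1 / 3) with h5 | h5
    · exact Or.inl h5
    rcases le_total τ (2 / 3) with h6 | h6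
    · exact Or.inr (Or.inl ⟨h5, h6⟩)
    · exact Or.inr (Or.inr ⟨h6, hτ.2⟩)
  refine ⟨max (max s₁ s₂) (K * ρ), (h₁.trans (le_max_left _ _)).trans (le_max_left _ _), H, ?_, ?_,
    ?_, ?_, ?_⟩
  · have hun : Icc (0 : ℝ) 1 ×ˢ S = (Icc (0 : ℝ) (1 / 3) ×ˢ S) ∪
        ((Icc ((1 : ℝ) / 3) (2 / 3) ×ˢ S) ∪ (Icc ((2 : ℝ) / 3) 1 ×ˢ S)) := by
      rw [← union_prod, ← union_prod, Icc_union_Icc_eq_Icc (by norm_num) (by norm_num),
        Icc_union_Icc_eq_Icc (by norm_num) (by norm_num)]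
    rw [hun]
    refine ContinuousOn.union_of_isClosed ?_ (ContinuousOn.union_of_isClosed ?_ ?_
      (isClosed_Icc.prod hS) (isClosed_Icc.prod hS)) (isClosed_Icc.prod hS)
      ((isClosed_Icc.prod hS).union (isClosed_Icc.prod hS))
    · have h5 : ContinuousOn (fun q : ℝ × T => MiL K (3 * q.1) (F₁ q.2))
          (Icc (0 : ℝ) (1 / 3) ×ˢ S) := by
        refine (continuousOn_MiL (K := K) h hρ h₁ k1').comp (f := fun q : ℝ × T => (3 * q.1, F₁ q.2))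
          ((by fun_prop : Continuous fun q : ℝ × T => 3 * q.1).continuousOn.prodMk
            (c₁.comp continuous_snd.continuousOn fun q hq => hq.2)) fun q hq => ?_
        exact ⟨⟨by linarith [hq.1.1], by linarith [hq.1.2]⟩, m₁ hq.2⟩
      exact h5.congr fun q hq => H1 _ hq.1.2 _
    · have h5 : ContinuousOn (fun q : ℝ × T => itpL (P q.2 (3 * q.1 - 1)))
          (Icc ((1 : ℝ) / 3) (2 / 3) ×ˢ S) := by
        refine continuousOn_itpL' h hρ (fun i => ?_) fun q hq =>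
          hP q.2 hq.2 _ ⟨by linarith [hq.1.1], by linarith [hq.1.2]⟩
        have c3 : ContinuousOn (fun q : ℝ × T => sampleL K (F₁ q.2) i)
            (Icc ((1 : ℝ) / 3) (2 / 3) ×ˢ S) :=
          ((continuous_apply i).comp continuous_sampleL).comp_continuousOn
            (c₁.comp continuous_snd.continuousOn fun q hq => hq.2)
        have c4 : ContinuousOn (fun q : ℝ × T => sampleL K (F₂ q.2) i)
            (Icc ((1 : ℝ) / 3) (2 / 3) ×ˢ S) :=
          ((continuous_apply i).comp continuous_sampleL).comp_continuousOn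
            (c₂.comp continuous_snd.continuousOn fun q hq => hq.2)
        exact ContinuousOn.seg h c3 c4 (by fun_prop)
          (fun q hq => (hdP q.2 hq.2 i).trans_lt (by linarith))
          fun q hq => ⟨by linarith [hq.1.1], by linarith [hq.1.2]⟩
      exact h5.congr fun q hq => H2 _ hq.1 _ hq.2
    · have h5 : ContinuousOn (fun q : ℝ × T => MiL K (3 - 3 * q.1) (F₂ q.2))
          (Icc ((2 : ℝ) / 3) 1 ×ˢ S) := by
        refine (continuousOn_MiL (K := K) h hρ h₂ k2').comp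
          (f := fun q : ℝ × T => (3 - 3 * q.1, F₂ q.2))
          ((by fun_prop : Continuous fun q : ℝ × T => 3 - 3 * q.1).continuousOn.prodMk
            (c₂.comp continuous_snd.continuousOn fun q hq => hq.2)) fun q hq => ?_
        exact ⟨⟨by linarith [hq.1.2], by linarith [hq.1.1]⟩, m₂ hq.2⟩
      exact h5.congr fun q hq => H3 _ hq.1 _ hq.2
  · intro τ hτ a ha
    rcases cases τ hτ with h5 | h5 | h5
    · rw [H1 τ h5]
      exact XE_mono h₁ ((le_max_left _ _).trans (le_max_left _ _))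
        (MiL_mem h hρ k1' (m₁ ha) ⟨by linarith [hτ.1], by linarith⟩)
    · rw [H2 τ h5 a ha]
      exact XE_mono (by positivity) (le_max_right _ _)
        (itpL_mem' h (hP a ha _ ⟨by linarith [h5.1], by linarith [h5.2]⟩))
    · rw [H3 τ h5 a ha]
      exact XE_mono h₂ ((le_max_right _ _).trans (le_max_left _ _))
        (MiL_mem h hρ k2' (m₂ ha) ⟨by linarith [h5.2], by linarith [h5.1]⟩)
  · intro τ hτ a ha b hb e₁ e₂
    rw [rot_one_div hN hm] at e₁ e₂ ⊢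
    rcases cases τ hτ with h5 | h5 | h5
    · rw [H1 τ h5, H1 τ h5, e₁, ← hK,
        MiL_rot h hρ k1' (m₁ ha) ⟨by linarith [hτ.1], by linarith⟩]
    · have hτ' : 3 * τ - 1 ∈ Icc (0 : ℝ) 1 := ⟨by linarith [h5.1], by linarith [h5.2]⟩
      have h6 : P b (3 * τ - 1) = pshift ((m : ℤ) : ZMod K) (P a (3 * τ - 1)) := by
        change segP (sampleL K (F₁ b)) (sampleL K (F₂ b)) _ = _
        rw [e₁, e₂, ← hK, sampleL_rot, sampleL_rot, segP_pshift]
      rw [H2 τ h5 a ha, H2 τ h5 b hb, h6, itpL_pshift' h (hP a ha _ hτ')]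
    · rw [H3 τ h5 a ha, H3 τ h5 b hb, e₂, ← hK,
        MiL_rot h hρ k2' (m₂ ha) ⟨by linarith [h5.2], by linarith [h5.1]⟩]
  · intro a _
    rw [H1 0 (by norm_num), mul_zero, MiL_zero]
  · intro a ha
    rw [H3 1 ⟨by norm_num, le_rfl⟩ a ha, show (3 : ℝ) - 3 * 1 = 0 by norm_num, MiL_zero]

/-- Two `ρ / 4`-close maps between energy sublevels commuting with the rotation by `1 / N` are
homotopic through such maps. -/
theorem exists_homotopy [CompactSpace M] {ρ : ℝ} (hρ : 0 < ρ) (h : UniqSeg M ρ) {N : ℕ}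
    (hN : 0 < N) {s s₁ s₂ : ℝ} (h₁ : 0 ≤ s₁) (h₂ : 0 ≤ s₂) {R₁ R₂ : LM M → LM M}
    (c₁ : ContinuousOn R₁ (XE M s)) (c₂ : ContinuousOn R₂ (XE M s))
    (m₁ : MapsTo R₁ (XE M s) (XE M s₁)) (m₂ : MapsTo R₂ (XE M s) (XE M s₂))
    (e₁ : ∀ g ∈ XE M s, R₁ (rot (1 / N) g) = rot (1 / N) (R₁ g))
    (e₂ : ∀ g ∈ XE M s, R₂ (rot (1 / N) g) = rot (1 / N) (R₂ g))
    (hd : ∀ g ∈ XE M s, ∀ t, dist (fn (R₁ g) t) (fn (R₂ g) t) ≤ ρ / 4) :
    ∃ s' : ℝ, 0 ≤ s' ∧ ∃ H : ℝ → LM M → LM M,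
      ContinuousOn (fun q : ℝ × LM M => H q.1 q.2) (Icc (0 : ℝ) 1 ×ˢ XE M s) ∧
      (∀ τ ∈ Icc (0 : ℝ) 1, MapsTo (H τ) (XE M s) (XE M s')) ∧
      (∀ τ ∈ Icc (0 : ℝ) 1, ∀ g ∈ XE M s, H τ (rot (1 / N) g) = rot (1 / N) (H τ g)) ∧
      (∀ g ∈ XE M s, H 0 g = R₁ g) ∧ ∀ g ∈ XE M s, H 1 g = R₂ g := by
  obtain ⟨s', h0, H, a1, a2, a3, a4, a5⟩ :=
    exists_homotopy' hρ h hN h₁ h₂ isClosed_XE c₁ c₂ m₁ m₂ hd
  exact ⟨s', h0, H, a1, a2, fun τ hτ g hg => a3 τ hτ g hg _ (rot_mem hg _) (e₁ g hg) (e₂ g hg),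
    a4, a5⟩

/-- Two `ρ / 8`-approximations of `g ↦ f ∘ g` are homotopic. -/
theorem exists_homotopy_of_approx [CompactSpace M] {ρ : ℝ} (hρ : 0 < ρ) (h : UniqSeg M ρ)
    (f : M → M) {N : ℕ} (hN : 0 < N) {s s₁ s₂ : ℝ} (h₁ : 0 ≤ s₁) (h₂ : 0 ≤ s₂)
    {R₁ R₂ : LM M → LM M}
    (c₁ : ContinuousOn R₁ (XE M s)) (c₂ : ContinuousOn R₂ (XE M s))
    (m₁ : MapsTo R₁ (XE M s) (XE M s₁)) (m₂ : MapsTo R₂ (XE M s) (XE M s₂))
    (e₁ : ∀ g ∈ XE M s, R₁ (rot (1 / N) g) = rot (1 / N) (R₁ g))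
    (e₂ : ∀ g ∈ XE M s, R₂ (rot (1 / N) g) = rot (1 / N) (R₂ g))
    (d₁ : ∀ g ∈ XE M s, ∀ t, dist (fn (R₁ g) t) (f (fn g t)) ≤ ρ / 8)
    (d₂ : ∀ g ∈ XE M s, ∀ t, dist (fn (R₂ g) t) (f (fn g t)) ≤ ρ / 8) :
    ∃ s' : ℝ, 0 ≤ s' ∧ ∃ H : ℝ → LM M → LM M,
      ContinuousOn (fun q : ℝ × LM M => H q.1 q.2) (Icc (0 : ℝ) 1 ×ˢ XE M s) ∧
      (∀ τ ∈ Icc (0 : ℝ) 1, MapsTo (H τ) (XE M s) (XE M s')) ∧
      (∀ τ ∈ Icc (0 : ℝ) 1, ∀ g ∈ XE M s, H τ (rot (1 / N) g) = rot (1 / N) (H τ g)) ∧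
      (∀ g ∈ XE M s, H 0 g = R₁ g) ∧ ∀ g ∈ XE M s, H 1 g = R₂ g :=
  exists_homotopy hρ h hN h₁ h₂ c₁ c₂ m₁ m₂ e₁ e₂ fun g hg t => by
    have a1 := d₁ g hg t
    have a2 := d₂ g hg t
    have a3 := dist_triangle_right (fn (R₁ g) t) (fn (R₂ g) t) (f (fn g t))
    linarith

end Vale.Agent.P216.H971
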