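import Vale.Agent.P216.H971.LowStep

/-!
# P216-D, [LOW]: the zigzag exists; what it says about the fibre
-/

set_option linter.unusedVariables false
set_option linter.unusedSectionVars false

open Set Finsupp Topology BoundedContinuousFunction

namespace Vale.Agent.P216.H971.Low

open Sl PS MV337 H456 H456C
open Vale.Agent.P216.AS (IsMap IsHtpy)
open Vale.Agent.P216.H901 (tr on)

/-- The restrictions are zero in degree `j`. -/
def LowE (k : Type) [Field k] (M : Type) [MetricSpace M] (L : ℝ) (j : ℕ) : Prop :=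
  ∀ (a b : M) (t : ℝ), 0 ≤ t → ∀ f : List (ℝ →ᵇ M) → k, CocL (P a b (t + L)) j f →
    ExC (P a b t) j f

theorem LowE.mono {k : Type} [Field k] {M : Type} [MetricSpace M] {L L' : ℝ} {j : ℕ}
    (h : LowE k M L j) (hL : L ≤ L') : LowE k M L' j :=
  fun a b t ht f hf => h a b t ht f (hf.mono (P_mono (by linarith)))

variable {k : Type} [Field k] {M : Type} [MetricSpace M] [CompactSpace M]
  {b v : M} {F : Finset M} {N a q : ℕ} {r r' t t' ρ R D L r₀ : ℝ}
  {ζ ζ' : List M → List (ℝ →ᵇ M) → k} {σ : List M}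

theorem P_sub_XS {w : ℝ →ᵇ M} (hw : w ∈ XS b σ r t) (hv : v ∈ σ) : P v b t' ⊆ XS b σ (2 * r) t' := by
  intro u hu
  refine ⟨P_subset_PF hu, fun v' hv' => ?_⟩
  have h1 := hw.2 v hv
  have h2 := hw.2 v' hv'
  show dist (u 0) v' ≤ 2 * r
  rw [eq_left hu le_rfl]
  have h3 := dist_triangle_left v v' (w 0)
  linarith

/-- Vanishing of the classes of a low degree over a tuple. -/
theorem exC_low (hp : IsPi M D) (hU : LS.UniqSeg M ρ) (hR : 0 < R) (hRρ : R < ρ) (hL : 0 ≤ L)
    {m : ℕ} (hlow : 0 < m → LowE k M L m) (hσ : σ ≠ []) (hr0 : 0 ≤ r) (hr : r ≤ R) (ht : 0 ≤ t)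
    {f : List (ℝ →ᵇ M) → k} (hf : CocL (XS b σ (2 * r) (t + (2 * R + L + D))) m f) :
    ExC (XS b σ r t) m f := by
  have hD := hp.nonneg
  obtain ⟨v, hv⟩ := List.exists_mem_of_ne_nil σ hσ
  rcases (XS b σ r t).eq_empty_or_nonempty with h | ⟨w, hw⟩
  · rw [h]
    exact exC_empty
  have hf' : CocL (XS b σ (2 * r) (t + 2 * R)) m f :=
    hf.mono (XS_mono (fun _ h => h) le_rfl (by linarith))
  rcases Nat.eq_zero_or_pos m with rfl | hm
  · refine exC_XS_zero hp hU hR hRρ hv hr0 hr ht hf' ?_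
    exact (hf.mono (P_sub_XS hw hv)).mono (P_mono (by linarith))
  · refine exC_XS hU hR hRρ hv hr0 hr ht hf' (hlow hm v b _ (by linarith) f ?_)
    exact (hf.mono (P_sub_XS hw hv)).mono (P_mono (by linarith))

/-- The first column. -/
def col (z₁ : M → List (ℝ →ᵇ M) → k) : List M → List (ℝ →ᵇ M) → k
  | [v], l => z₁ v l
  | _, _ => 0

theorem good_col {z₁ : M → List (ℝ →ᵇ M) → k}
    (hz : ∀ v ∈ F, CocL (XS b [v] r t) q (z₁ v)) : Good b F (q + 2) 1 r t (col z₁) := by
  obtain ⟨ε, hε, h⟩ := exists_eps F 1 (Q := fun σ ε => ∀ v, σ = [v] → ∀ l : List (ℝ →ᵇ M),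
      l.length = q + 2 → SmL (XS b [v] r t) ε l → dl (z₁ v) l = 0)
    (fun σ ε ε' hq _ hle v hv l hl hs => hq v hv l hl (hs.mono le_rfl hle)) fun σ hσ hF => by
      obtain ⟨v, rfl⟩ := List.length_eq_one_iff.1 hσ
      obtain ⟨ε, hε, h⟩ := hz v (hF v List.mem_cons_self)
      refine ⟨ε, hε, fun v' hv' l hl hs => ?_⟩
      obtain rfl : v = v' := by simpa using hv'
      exact h l hl hs
  refine ⟨fun l => rfl, fun v n hn l => ?_, ε, hε, fun σ l hσ0 hσ hF hl hs => ?_⟩
  · obtain ⟨n', rfl⟩ : ∃ n', n = n' + 2 := ⟨n - 2, by omega⟩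
    rfl
  · have hσ1 : σ.length = 1 := by
      have := List.length_pos_iff.2 hσ0
      omega
    have h1 := h σ hσ1 hF
    obtain ⟨v, rfl⟩ := List.length_eq_one_iff.1 hσ1
    have h2 := h1 v rfl l (by simp at hl; omega) hs
    unfold Dd
    rw [dl_one]
    have e : col z₁ [v] = z₁ v := rfl
    rw [e, h2]
    show (0 : k) - _ = 0
    ring

/-- **The zigzag.** -/
theorem exists_good (hp : IsPi M D) (hU : LS.UniqSeg M ρ) (hR : 0 < R) (hRρ : R < ρ) (hL : 0 ≤ L)
    (hlow : ∀ j, 0 < j → j < q → LowE k M L j) (ht : 0 ≤ t) (hr₀ : 0 < r₀)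
    (hrR : r₀ * 2 ^ (q + 1) ≤ R) {z₁ : M → List (ℝ →ᵇ M) → k}
    (hz : ∀ v ∈ F, CocL (XS b [v] (r₀ * 2 ^ (q + 1)) (t + (q + 1 : ℕ) * (2 * R + L + D))) q (z₁ v))
    (hzz : ∀ v ∈ F, ∀ v' ∈ F, ExC (XS b [v, v'] (r₀ * 2 ^ q) (t + (q : ℕ) * (2 * R + L + D))) q
      fun l => z₁ v' l - z₁ v l) :
    ∃ ζ : List M → List (ℝ →ᵇ M) → k, Good b F (q + 2) (q + 2) r₀ t ζ ∧ ∀ v, ζ [v] = z₁ v := by
  have hD := hp.nonneg
  have hc : 0 ≤ 2 * R + L + D := by linarith
  have key : ∀ a n : ℕ, 1 ≤ a → a + n = q + 2 → ∃ ζ : List M → List (ℝ →ᵇ M) → k,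
      Good b F (q + 2) a (r₀ * 2 ^ n) (t + (n : ℕ) * (2 * R + L + D)) ζ ∧ ∀ v, ζ [v] = z₁ v := by
    intro a
    induction a with
    | zero => intro n h; omega
    | succ a ih =>
      intro n _ han
      rcases Nat.eq_zero_or_pos a with rfl | ha
      · obtain rfl : n = q + 1 := by omega
        exact ⟨col z₁, good_col hz, fun v => rfl⟩
      · obtain ⟨ζ, hζ, hζ1⟩ := ih (n + 1) ha (by omega)
        have e2 : r₀ * 2 ^ (n + 1) = 2 * (r₀ * 2 ^ n) := by ring
        have hrn : r₀ * 2 ^ n ≤ R := by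
          refine le_trans ?_ hrR
          exact mul_le_mul_of_nonneg_left (pow_le_pow_right₀ (by norm_num) (by omega)) hr₀.le
        have hrn0 : 0 ≤ r₀ * 2 ^ n := by positivity
        obtain ⟨ζ', hζ', hζ2⟩ := hζ.step ha (m := n) (r' := r₀ * 2 ^ n)
          (t' := t + (n : ℕ) * (2 * R + L + D)) (by omega) (by rw [e2]; linarith)
          (by push_cast; linarith) fun σ hσ hF => by
            by_cases ha1 : a = 1
            · subst ha1
              obtain rfl : n = q := by omega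
              obtain ⟨v, v', rfl⟩ := List.length_eq_two.1 hσ
              refine (hzz v (hF v (by simp)) v' (hF v' (by simp))).congr fun l hl => ?_
              unfold ob
              rw [dl_cons, dl_one, hζ1, hζ1]
              norm_num
            · have h1 := hζ.cocL ha (m := n) (by omega) hσ hF
              refine exC_low hp hU hR hRρ hL (fun hn => hlow n hn (by omega))
                (by rintro rfl; simp at hσ) hrn0 hrn (by positivity) ?_
              rw [e2] at h1
              refine h1.mono (XS_mono (fun _ h => h) le_rfl ?_)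
              push_cast
              linarith
        exact ⟨ζ', hζ', fun v => by rw [hζ2 [v] (by simp; omega), hζ1]⟩
  obtain ⟨ζ, hζ, h1⟩ := key (q + 2) 0 (by omega) (by omega)
  refine ⟨ζ, ?_, h1⟩
  simpa using hζ

/-- The cochain on `M`. -/
def ct (φ : M → M) (ζ : List M → List (ℝ →ᵇ M) → k) (l : List M) : k := ζ (l.map φ) []

variable {φ : M → M} {x₁ : M}

/-- The cochain on `M` is a cocycle. -/
theorem Good.cocL_ct (h : Good b F (q + 2) (q + 2) r₀ t ζ) (hp : IsPi M D) (hD : D ≤ t)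
    (hr₀ : 0 < r₀) (hφF : ∀ x, φ x ∈ F) (hφ : ∀ x, dist x (φ x) ≤ r₀ / 2) :
    CocL (univ : Set M) (q + 1) (ct φ ζ) := by
  obtain ⟨h1, h2, ε, hε, h3⟩ := h
  refine ⟨r₀ / 2, by positivity, fun l hl hs => ?_⟩
  rcases l with _ | ⟨x, l⟩
  · simp at hl
  obtain ⟨w, hw⟩ := hp.ne x b
  have hw' : w ∈ P x b t := P_mono hD hw
  have e : dl (ct φ ζ) (x :: l) = dl (fun τ => ζ τ []) ((x :: l).map φ) := by
    rw [← dl_map]
    rfl
  have e1 : dl (fun τ => ζ τ []) ((x :: l).map φ) =
      dl (fun τ => (-1 : k) ^ (q + 2) * dl (fun τ' => ζ τ' [w]) τ) ((x :: l).map φ) := by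
    refine dl_congr fun τ hτ hm => ?_
    rw [List.length_map] at hτ
    have hτ2 : τ.length = q + 2 := by omega
    have hτF : ∀ v ∈ τ, v ∈ F := fun v hv => by
      obtain ⟨y, -, rfl⟩ := List.mem_map.1 (hm v hv)
      exact hφF y
    have h4 := h3 τ [w] (by rintro rfl; simp at hτ2) hτ2.le hτF (by simp [hτ2]) ⟨fun u hu => ?_,
      fun u hu u' hu' => ?_⟩
    · unfold Dd at h4
      rw [dl_one, hτ2] at h4
      have h5 := neg_one_sq_pow (k := k) (q + 2)
      linear_combination (-(-1 : k) ^ (q + 2)) * h4 - ζ τ [] * h5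
    · obtain rfl : u = w := by simpa using hu
      refine ⟨P_subset_PF hw', fun v hv => ?_⟩
      obtain ⟨y, hy, rfl⟩ := List.mem_map.1 (hm v hv)
      show dist (u 0) (φ y) ≤ r₀
      rw [eq_left hw' le_rfl]
      have h5 := hs.2 x List.mem_cons_self y hy
      have h6 := dist_triangle x y (φ y)
      linarith [hφ y]
    · obtain rfl : u = w := by simpa using hu
      obtain rfl : u' = u := by simpa using hu'
      rwa [dist_self]
  rw [e, e1, dl_mul_left, dl_dl, mul_zero]

/-- The path space has no cohomology. -/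
theorem exL_PF (b : M) (ht : 0 ≤ t) (hq : 1 ≤ q) {f : List (ℝ →ᵇ M) → k}
    (hf : CocL (PF b t) q f) : ExL (PF b t) q f := by
  have h := PF_subsingleton k b ht hq
  have h1 : cls (tr (ℝ →ᵇ M)) (on k) f hf = 0 := Subsingleton.elim _ _
  exact cls_eq_zero.1 h1

/-- **The class on the fibre over `x₁` is zero if the cochain on `M` is exact.** -/
theorem Good.exC (h : Good b F (q + 2) (q + 2) r₀ t ζ) (hq : 1 ≤ q) (ht : 0 ≤ t)
    (hr₀ : 0 < r₀) (hφF : ∀ x, φ x ∈ F) (hφ : ∀ x, dist x (φ x) ≤ r₀ / 2) (hφ₁ : φ x₁ = x₁)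
    (hne : (P x₁ b t).Nonempty) (hex : ExL (univ : Set M) (q + 1) (ct φ ζ)) :
    ExC (P x₁ b t) q (ζ [x₁]) := by
  obtain ⟨h1, h2, ε, hε, h3⟩ := h
  obtain ⟨β, -, δ, hδ, hβ⟩ := hex
  let ev0 : (ℝ →ᵇ M) → M := fun w => w 0
  have hev : ∀ w w' : ℝ →ᵇ M, dist (ev0 w) (ev0 w') ≤ dist w w' := fun w w' =>
    BoundedContinuousFunction.dist_coe_le_dist 0
  have hZ : CocL (PF b t) q fun l =>
      kap (fun w => φ (ev0 w)) ζ l - (-1 : k) ^ (q + 2) * β (l.map ev0) := by
    refine ⟨min (min ε (r₀ / 2)) δ, by positivity, fun l hl hs => ?_⟩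
    have hsd : SmL (univ : Set M) δ (l.map ev0) := by
      refine ⟨fun _ _ => mem_univ _, fun y hy y' hy' => ?_⟩
      obtain ⟨w, hw, rfl⟩ := List.mem_map.1 hy
      obtain ⟨w', hw', rfl⟩ := List.mem_map.1 hy'
      exact (hev w w').trans_lt ((hs.2 w hw w' hw').trans_le (min_le_right _ _))
    rw [dl_sub, dl_mul_left, dl_map, dl_kap, h1 l, ← hβ (l.map ev0) (by rw [List.length_map]; omega)
      hsd, hl]
    have e0 : kap (fun w => φ (ev0 w)) (Dd ζ) l = 0 := by
      refine kap_eq_zero _ fun l₁ w l₂ e => ?_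
      have hm : ∀ x ∈ l₁ ++ [w], x ∈ l := fun x hx => by
        rw [e]
        rcases List.mem_append.1 hx with hx | hx
        · exact List.mem_append_left _ hx
        · rw [List.mem_singleton.1 hx]
          exact List.mem_append_right _ List.mem_cons_self
      have hm2 : ∀ x ∈ w :: l₂, x ∈ l := fun x hx => by
        rw [e]
        exact List.mem_append_right _ hx
      have hll : l₁.length + l₂.length + 1 = q + 2 := by
        rw [← hl, e]
        simp only [List.length_append, List.length_cons]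
        omega
      refine h3 _ _ (by simp) (by simp; omega) (fun v hv => ?_)
        (by simp only [List.length_map, List.length_append, List.length_cons, List.length_nil]; omega)
        ⟨fun u hu => ⟨hs.1 u (hm2 u hu), fun v hv => ?_⟩, fun u hu u' hu' => ?_⟩
      · obtain ⟨y, -, rfl⟩ := List.mem_map.1 hv
        exact hφF _
      · obtain ⟨y, hy, rfl⟩ := List.mem_map.1 hv
        have h5 := (hev u y).trans_lt (hs.2 u (hm2 u hu) y (hm y hy))
        have h6 := dist_triangle (ev0 u) (ev0 y) (φ (ev0 y))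
        have h7 := hφ (ev0 y)
        have h8 : min (min ε (r₀ / 2)) δ ≤ r₀ / 2 := (min_le_left _ _).trans (min_le_right _ _)
        show dist (ev0 u) (φ (ev0 y)) ≤ r₀
        linarith
      · exact (hs.2 u (hm2 u hu) u' (hm2 u' hu')).trans_le
          ((min_le_left _ _).trans (min_le_left _ _))
    have e1 : ct φ ζ (l.map ev0) = ζ (l.map fun w => φ (ev0 w)) [] := by
      unfold ct
      rw [List.map_map]
      rfl
    rw [e0, e1]
    ring
  have hZ1 := exC_of_exL ((exL_PF b ht hq hZ).mono (P_subset_PF (a := x₁)))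
  -- the constant
  have hc : ExC (P x₁ b t) q fun _ : List (ℝ →ᵇ M) =>
      (-1 : k) ^ (q + 2) * β (List.replicate (q + 1) x₁) := by
    by_cases ho : Odd (q + 1)
    · refine ⟨fun _ => (-1 : k) ^ (q + 2) * β (List.replicate (q + 1) x₁), 1, one_pos,
        fun l hl _ => ?_⟩
      rw [dl_const, hl, if_pos ho]
    · have h4 : β (List.replicate (q + 1) x₁) = 0 := by
        have h5 := hβ (List.replicate (q + 2) x₁) (List.length_replicate) ⟨fun _ _ => mem_univ _,
          fun y hy y' hy' => by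
            rw [(List.mem_replicate.1 hy).2, (List.mem_replicate.1 hy').2, dist_self]
            exact hδ⟩
        have h6 : ct φ ζ (List.replicate (q + 2) x₁) = 0 := by
          unfold ct
          rw [List.map_replicate, hφ₁]
          exact h2 x₁ (q + 2) (by omega) []
        have h7 : dl β (List.replicate (q + 2) x₁) =
            dl (fun _ => β (List.replicate (q + 1) x₁)) (List.replicate (q + 2) x₁) := by
          refine dl_congr fun l' hl' hm => ?_
          rw [List.length_replicate] at hl'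
          have e : l' = List.replicate (q + 1) x₁ := by
            rw [List.eq_replicate_iff]
            exact ⟨by omega, fun x hx => (List.mem_replicate.1 (hm x hx)).2⟩
          rw [e]
        rw [h6, h7, dl_const, List.length_replicate,
          if_pos (by rw [Nat.odd_add_one]; exact ho)] at h5
        exact h5.symm
      refine ⟨fun _ => 0, 1, one_pos, fun l _ _ => ?_⟩
      rw [h4, mul_zero, dl_zero]
  obtain ⟨g, δ', hδ', hg⟩ := hZ1.add hc
  refine ⟨g, δ', hδ', fun l hl hs => ?_⟩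
  rw [← hg l hl hs]
  have hl0 : l ≠ [] := by
    rintro rfl
    simp at hl
  have hx : ∀ w ∈ l, ev0 w = x₁ := fun w hw => eq_left (hs.1 w hw) le_rfl
  have e2 : kap (fun w => φ (ev0 w)) ζ l = ζ [x₁] l :=
    kap_const _ hl0 (fun w hw => by
      show φ (ev0 w) = x₁
      rw [hx w hw, hφ₁]) fun n l' hn => h2 x₁ n hn l'
  have e3 : l.map ev0 = List.replicate (q + 1) x₁ := by
    rw [List.eq_replicate_iff]
    refine ⟨by rw [List.length_map, hl], fun y hy => ?_⟩
    obtain ⟨w, hw, rfl⟩ := List.mem_map.1 hy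
    exact hx w hw
  show _ = kap (fun w => φ (ev0 w)) ζ l - (-1 : k) ^ (q + 2) * β (l.map ev0) +
    (-1 : k) ^ (q + 2) * β (List.replicate (q + 1) x₁)
  rw [e2, e3]
  ring

end Vale.Agent.P216.H971.Low
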