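import Vale.Agent.P216.H971.LowGeo

/-!
# P216-D, [LOW]: transport to a base point

`Tp R D c v`: a path to `b`, starting close to `v`, is moved to the base point `x₁` along `c`.
-/

set_option linter.unusedVariables false

open Set Finsupp Topology BoundedContinuousFunction

namespace Vale.Agent.P216.H971.Low

open Sl PS MV337 H456 H456C
open Vale.Agent.P216.AS (IsMap IsHtpy)
open Vale.Agent.P216.H901 (tr on)

variable {M : Type} [MetricSpace M] [CompactSpace M] {ρ R D C r t : ℝ} {σ : List M}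
  {a b v v' x₁ : M} {c c' w : ℝ →ᵇ M}

/-- Transport to the start of `c`. -/
noncomputable def Tp (R D : ℝ) (c : ℝ →ᵇ M) (v : M) (w : ℝ →ᵇ M) : ℝ →ᵇ M :=
  cat D c (lcut (sT R v) R w)

theorem isMap_cat {s : ℝ} (hD : 0 ≤ D) (hs : 0 ≤ s) (hc : c ∈ P a v D) :
    IsMap (tr (ℝ →ᵇ M)) (tr (ℝ →ᵇ M)) (P v b s) (P a b (D + s)) (cat D c) :=
  ⟨fun w hw => cat_mem hD hs hc hw, fun i => i.elim, fun ε hε => ⟨ε, hε, fun x hx y hy hxy => by
    refine (dist_cat_cat_le hc.1 hc.1 hx.1 hy.1 ?_ ?_).trans_lt ?_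
    · rw [eq_right hc le_rfl, eq_left hx le_rfl]
    · rw [eq_right hc le_rfl, eq_left hy le_rfl]
    · rw [dist_self]
      exact max_lt hε hxy⟩⟩

theorem isMap_Tp (hU : LS.UniqSeg M ρ) (hR : 0 < R) (hRρ : R < ρ) (hD : 0 ≤ D) (ht : 0 ≤ t)
    (hc : c ∈ P a v D) :
    IsMap (tr (ℝ →ᵇ M)) (tr (ℝ →ᵇ M)) (PFD b (Metric.closedBall v R) t) (P a b (D + (t + R)))
      (Tp R D c v) := by
  have hT := tr_sT hU hR hRρ v
  exact (isMap_cat hD (by linarith) hc).comp (map_of_cont (isCompact_PFD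
    Metric.isClosed_closedBall ht) (continuousOn_lcut'B (b := b) hT ht continuousOn_id
      fun w hw => hw) fun w hw => lcut_memB hT ht hw)

/-- The short path from `v` to `x`. -/
noncomputable def qT (R : ℝ) (v x : M) : ℝ →ᵇ M := mo fun u => sT R v x (R - u)

theorem qT_mem (hU : LS.UniqSeg M ρ) (hR : 0 < R) (hRρ : R < ρ) {x : M}
    (hx : dist x v ≤ R) : qT R v x ∈ P v x R := by
  have hT := tr_sT hU hR hRρ v
  have hx' : x ∈ Metric.closedBall v R := hx
  exact mo_mem (hT.liprev hx') (fun u hu => hT.right x hx' _ (by linarith))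
    fun u hu => hT.left x hx' _ (by linarith)

/-- On the paths which start at `v`, the transport is a concatenation with one path. -/
theorem Tp_eq (hU : LS.UniqSeg M ρ) (hR : 0 < R) (hRρ : R < ρ) (hD : 0 ≤ D) (hC : 0 ≤ C)
    (hd : dist v v' ≤ R) (hc : c ∈ P a v' D) (hw : w ∈ P v b C) :
    Tp R D c v' w = cat (D + R) (cat D c (qT R v' v)) w := by
  have hT := tr_sT hU hR hRρ v'
  have hv : v ∈ Metric.closedBall v' R := hd
  have h0 : w 0 = v := eq_left hw le_rfl
  have hq := qT_mem hU hR hRρ hd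
  have hw' : w ∈ PFD b (Metric.closedBall v' R) C := ⟨P_subset_PF hw, by rw [h0]; exact hv⟩
  have hl := lcut_memB hT hC hw'
  have hcq := cat_mem hD hR.le hc hq
  have e1 : c D = lcut (sT R v') R w 0 := by rw [eq_right hc le_rfl, eq_left hl le_rfl]
  have e2 : c D = qT R v' v 0 := by rw [eq_right hc le_rfl, eq_left hq le_rfl]
  have e3 : cat D c (qT R v' v) (D + R) = w 0 := by rw [eq_right hcq le_rfl, h0]
  have e4 : w 0 = sT R v' (w 0) 0 := by rw [h0]; exact (hT.left _ hv 0 le_rfl).symm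
  ext u
  rw [Tp, cat_apply hc.1 hl.1 e1, cat_apply hcq.1 hw.1 e3]
  rcases le_total u D with h1 | h1
  · rw [catf_left h1, catf_left (by linarith), cat_apply hc.1 hq.1 e2, catf_left h1]
  rw [catf_right e1 h1, lcut_applyB hT hw']
  rcases le_total u (D + R) with h2 | h2
  · rw [catf_left h2, cat_apply hc.1 hq.1 e2, catf_right e2 h1, lj_left (by linarith), h0, qT,
      (hT.liprev hv).mo_apply]
  · rw [catf_right e3 h2, lj_right e4 (by linarith)]
    congr 1
    ring

variable {k : Type} [Field k] {m : ℕ} {z : List (ℝ →ᵇ M) → k}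

theorem exC_of_Hm {E E' : Type} [PseudoMetricSpace E] [PseudoMetricSpace E'] {X : Set E} {δ : ℝ}
    (hδ : 0 < δ) {eta : List E' → k} {f₀ f₁ : E → E'} (h : Hm eta X δ m f₀ f₁) :
    ExC X m fun l => eta (l.map f₁) - eta (l.map f₀) := by
  obtain ⟨g, hg⟩ := h
  exact ⟨g, δ, hδ, hg⟩

/-- **The transport does not depend on the path and on the centre.** -/
theorem exC_transport (hp : IsPi M D) (hU : LS.UniqSeg M ρ) (hR : 0 < R) (hRρ : R < ρ)
    (hC : 0 ≤ C) (hd : dist v v' ≤ R) (hc : c ∈ P a v D) (hc' : c' ∈ P a v' D)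
    (hz : CocL (P a b (D + R + D + C)) m z) :
    ExC (P v b C) m fun l => z (l.map (Tp R D c' v')) - z (l.map (Tp R D c v)) := by
  have hD := hp.nonneg
  obtain ⟨ε, hε, hz⟩ := hz
  have hq := cat_mem hD hR.le hc (qT_mem hU hR hRρ (x := v) (v := v) (by simpa using hR.le))
  have hq' := cat_mem hD hR.le hc' (qT_mem hU hR hRρ hd)
  have h := Hm_cat_slide (s₀ := D + R) hC hD hε (fun w hw w' hw' => hp.join a v _ (by linarith)
    w hw w' hw') hz (by linarith) (by linarith) le_rfl le_rfl hq hq'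
  refine (exC_of_Hm (half_pos hε) h).congr fun l hl => ?_
  congr 2
  · exact List.map_congr_left fun w hw => Tp_eq hU hR hRρ hD hC hd hc' (hl w hw)
  · exact List.map_congr_left fun w hw => Tp_eq hU hR hRρ hD hC (by simpa using hR.le) hc (hl w hw)

/-- **The transport along a loop.** -/
theorem exC_base (hp : IsPi M D) (hU : LS.UniqSeg M ρ) (hR : 0 < R) (hRρ : R < ρ)
    (hC : 0 ≤ C) (hc : c ∈ P a a D) (hz : CocL (P a b (D + R + D + C)) m z) :
    ExC (P a b C) m fun l => z (l.map (Tp R D c a)) - z l := by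
  have hD := hp.nonneg
  obtain ⟨ε, hε, hz⟩ := hz
  have hq := cat_mem hD hR.le hc (qT_mem hU hR hRρ (x := a) (v := a) (by simpa using hR.le))
  have h0 : BoundedContinuousFunction.const ℝ a ∈ P a a 0 :=
    ⟨fun u v => by simp, fun _ _ => rfl, fun _ _ => rfl⟩
  have h := Hm_cat_slide (s₀ := D + R) hC hD hε (fun w hw w' hw' => hp.join a a _ (by linarith)
    w hw w' hw') hz le_rfl (by linarith) (by linarith) le_rfl h0 hq
  refine (exC_of_Hm (half_pos hε) h).congr fun l hl => ?_
  congr 2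
  · exact List.map_congr_left fun w hw => Tp_eq hU hR hRρ hD hC (by simpa using hR.le) hc (hl w hw)
  · conv_lhs => rw [← List.map_id l]
    refine List.map_congr_left fun w hw => ?_
    have hw' := hl w hw
    have e : BoundedContinuousFunction.const ℝ a 0 = w 0 := by
      rw [eq_left hw' le_rfl]
      rfl
    ext u
    rw [cat_apply h0.1 hw'.1 e]
    rcases le_total u 0 with h1 | h1
    · rw [catf_left h1]
      exact eq_left hw' h1
    · rw [catf_right e h1, sub_zero]
      rfl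

end Vale.Agent.P216.H971.Low
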