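import Vale.Agent.P216.H971.LowAlg
import Vale.Agent.P216.H456C.CellSp
import Vale.Agent.P216.H456.PCon
import Vale.Agent.P216.H250.ListHtpy
import Vale.Agent.P216.H250.Pi0P
import Vale.Agent.P216.H787.Bfbp

/-!
# P216-D, [LOW]: geometry

`XS b σ r t`: the paths to `b` of time `t` whose starting point is `r`-close to all points of `σ`.
`exL_XS`: up to a bounded shift, its cohomology comes from the paths which start at `v ∈ σ`.
-/

set_option linter.unusedVariables false

open Set Finsupp Topology BoundedContinuousFunction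

namespace Vale.Agent.P216.H971.Low

open Sl PS MV337 H456 H456C
open Vale.Agent.P216.AS (IsMap IsHtpy)
open Vale.Agent.P216.H901 (tr on)

/-! ### Exact cochains -/

section ex

variable {k : Type} [Field k] {E E' : Type} [PseudoMetricSpace E] [PseudoMetricSpace E']
  {A A' : Set E} {B : Set E'} {m : ℕ}

/-- `f` is a coboundary on the small lists (up to a constant, if `m = 0`). -/
def ExC (X : Set E) (m : ℕ) (f : List E → k) : Prop :=
  ∃ g : List E → k, ∃ ε > 0, ∀ l, l.length = m + 1 → SmL X ε l → f l = dl g l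

theorem ExC.exL {f : List E → k} (h : ExC A m f) (hm : m ≠ 0) : ExL A m f := by
  obtain ⟨g, ε, hε, h⟩ := h
  exact ⟨g, fun h0 => absurd h0 hm, ε, hε, h⟩

theorem exC_of_exL {f : List E → k} (h : ExL A m f) : ExC A m f := by
  obtain ⟨g, -, ε, hε, h⟩ := h
  exact ⟨g, ε, hε, h⟩

theorem ExC.mono {f : List E → k} (h : ExC A m f) (hA : A' ⊆ A) : ExC A' m f := by
  obtain ⟨g, ε, hε, h⟩ := h
  exact ⟨g, ε, hε, fun l hl hs => h l hl (hs.mono hA le_rfl)⟩

theorem exC_empty {f : List E → k} : ExC (∅ : Set E) m f := by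
  refine ⟨fun _ => 0, 1, one_pos, fun l hl hs => ?_⟩
  rcases l with _ | ⟨x, l⟩
  · simp at hl
  · exact absurd (hs.1 x List.mem_cons_self) (notMem_empty x)

theorem ExC.congr {f f' : List E → k} (h : ExC A m f)
    (he : ∀ l : List E, (∀ x ∈ l, x ∈ A) → f' l = f l) : ExC A m f' := by
  obtain ⟨g, ε, hε, h⟩ := h
  exact ⟨g, ε, hε, fun l hl hs => (he l hs.1).trans (h l hl hs)⟩

theorem ExC.add {f g : List E → k} (hf : ExC A m f) (hg : ExC A m g) :
    ExC A m fun l => f l + g l := by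
  obtain ⟨a, ε, hε, h⟩ := hf
  obtain ⟨a', ε', hε', h'⟩ := hg
  refine ⟨fun l => a l + a' l, min ε ε', lt_min hε hε', fun l hl hs => ?_⟩
  show f l + g l = _
  rw [Sl.dl_add, h l hl (hs.mono le_rfl (min_le_left _ _)),
    h' l hl (hs.mono le_rfl (min_le_right _ _))]

theorem ExC.mul {f : List E → k} (c : k) (hf : ExC A m f) : ExC A m fun l => c * f l := by
  obtain ⟨a, ε, hε, h⟩ := hf
  refine ⟨fun l => c * a l, ε, hε, fun l hl hs => ?_⟩
  show c * f l = _
  rw [dl_mul_left, h l hl hs]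

theorem ExC.map {F : E → E'} (hF : IsMap (tr E) (tr E') A B F) {f : List E' → k}
    (h : ExC B m f) : ExC A m fun l => f (l.map F) := by
  obtain ⟨g, ε, hε, h⟩ := h
  obtain ⟨δ, hδ, h'⟩ := hF.uc ε hε
  refine ⟨fun l => g (l.map F), δ, hδ, fun l hl hs => ?_⟩
  rw [dl_map]
  refine h _ (by rw [List.length_map, hl]) ⟨fun y hy => ?_, fun y hy y' hy' => ?_⟩
  · obtain ⟨x, hx, rfl⟩ := List.mem_map.1 hy
    exact hF.mapsX (hs.1 x hx)
  · obtain ⟨x, hx, rfl⟩ := List.mem_map.1 hy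
    obtain ⟨x', hx', rfl⟩ := List.mem_map.1 hy'
    exact h' x (hs.1 x hx) x' (hs.1 x' hx') (hs.2 x hx x' hx')

/-- **Homotopies.** -/
theorem exC_htpy {D : ℝ → E → E'} (h : IsHtpy (tr E) (tr E') A B D) {f : List E' → k}
    (hf : CocL B m f) : ExC A m fun l => f (l.map (D 1)) - f (l.map (D 0)) := by
  obtain ⟨e, he, hf⟩ := hf
  obtain ⟨δ, hδ, H⟩ := H250.exists_prim_of_isHtpy h he
  obtain ⟨g, -, hg⟩ := H k m f hf
  exact ⟨g, δ, hδ, hg⟩

end ex

/-! ### Short tracks -/

section tracks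

variable {M : Type} [MetricSpace M] {ρ R : ℝ}

/-- The short segment from `x` to `v`, in time `R`. -/
noncomputable def sT (R : ℝ) (v x : M) (u : ℝ) : M := LS.seg x v (max 0 (min 1 (u / R)))

theorem clamp_mem (u : ℝ) : max 0 (min 1 u) ∈ Icc (0 : ℝ) 1 :=
  ⟨le_max_left _ _, max_le zero_le_one (min_le_left _ _)⟩

theorem tr_sT [CompactSpace M] (hU : LS.UniqSeg M ρ) (hR : 0 < R) (hRρ : R < ρ) (v : M) :
    MV337.Tr (Metric.closedBall v R) v R (sT R v) where
  nonneg := hR.le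
  lip x hx u u' := by
    have hx' : dist x v ≤ R := hx
    unfold sT
    rw [LS.dist_seg_seg hU (hx'.trans_lt hRρ) (clamp_mem _) (clamp_mem _)]
    have h1 : |max 0 (min 1 (u / R)) - max 0 (min 1 (u' / R))| ≤ |u / R - u' / R| := by
      refine (abs_max_sub_max_le_max _ _ _ _).trans (max_le (by simp) ?_)
      exact (abs_min_sub_min_le_max _ _ _ _).trans (max_le (by simp) le_rfl)
    have h2 : |u / R - u' / R| * R = |u - u'| := by
      rw [← sub_div, abs_div, abs_of_pos hR, div_mul_cancel₀ _ hR.ne']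
    rw [← h2]
    exact mul_le_mul h1 hx' dist_nonneg (abs_nonneg _)
  left x hx u hu := by
    unfold sT
    rw [max_eq_left ((min_le_right _ _).trans (div_nonpos_of_nonpos_of_nonneg hu hR.le)),
      LS.seg_zero]
  right x hx u hu := by
    unfold sT
    rw [min_eq_left ((one_le_div hR).2 hu), max_eq_right zero_le_one, LS.seg_one]
  cont := by
    unfold sT
    refine LS.ContinuousOn.seg hU continuousOn_fst continuousOn_const (by fun_prop)
      (fun p hp => ?_) fun p _ => clamp_mem _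
    have h1 : dist p.1 v ≤ R := hp.1
    exact h1.trans_lt hRρ

theorem sT_self (v : M) (u : ℝ) : sT R v v u = v := LS.seg_self _ _

end tracks

/-! ### The sets -/

section sets

variable {M : Type} [MetricSpace M] {ρ R r r' t t' : ℝ} {σ τ : List M} {b v : M}

/-- The points which are `r`-close to all points of `σ`. -/
def Bs (σ : List M) (r : ℝ) : Set M := {x | ∀ v ∈ σ, dist x v ≤ r}

theorem isClosed_Bs (σ : List M) (r : ℝ) : IsClosed (Bs σ r) := by
  have : Bs σ r = ⋂ v ∈ σ, Metric.closedBall v r := by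
    ext x
    simp only [Bs, mem_iInter, Metric.mem_closedBall]
    rfl
  rw [this]
  exact isClosed_biInter fun v _ => Metric.isClosed_closedBall

theorem Bs_mono (h : ∀ v ∈ τ, v ∈ σ) (hr : r ≤ r') : Bs σ r ⊆ Bs τ r' :=
  fun x hx v hv => (hx v (h v hv)).trans hr

/-- The paths to `b`, starting in `Bs σ r`. -/
def XS (b : M) (σ : List M) (r t : ℝ) : Set (ℝ →ᵇ M) := PFD b (Bs σ r) t

theorem XS_mono (h : ∀ v ∈ τ, v ∈ σ) (hr : r ≤ r') (ht : t ≤ t') : XS b σ r t ⊆ XS b τ r' t' :=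
  fun w hw => ⟨PF_mono ht hw.1, Bs_mono h hr hw.2⟩

theorem XS_sub_ball (hv : v ∈ σ) (hr : r ≤ R) : XS b σ r t ⊆ PFD b (Metric.closedBall v R) t :=
  fun w hw => ⟨hw.1, (hw.2 v hv).trans hr⟩

theorem Bs_seg (hU : LS.UniqSeg M ρ) (hv : v ∈ σ) (hr : r < ρ) {x : M} (hx : x ∈ Bs σ r) {s : ℝ}
    (hs : s ∈ Icc (0 : ℝ) 1) : LS.seg x v s ∈ Bs σ (2 * r) := by
  intro v' hv'
  have h1 := hx v hv
  have h2 := hx v' hv'
  have h3 := LS.dist_left_seg hU (h1.trans_lt hr) hs
  have h4 : s * dist x v ≤ r :=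
    (mul_le_of_le_one_left dist_nonneg hs.2).trans h1
  have h5 := dist_triangle (LS.seg x v s) x v'
  rw [dist_comm (LS.seg x v s) x] at h5
  linarith

variable [CompactSpace M]

theorem isCompact_XS (b : M) (σ : List M) (r : ℝ) (ht : 0 ≤ t) : IsCompact (XS b σ r t) :=
  isCompact_PFD (isClosed_Bs σ r) ht

/-- First homotopy. -/
theorem htpyA (hU : LS.UniqSeg M ρ) (hR : 0 < R) (hRρ : R < ρ) (hv : v ∈ σ) (hr : r ≤ R)
    (ht : 0 ≤ t) : IsHtpy (tr (ℝ →ᵇ M)) (tr (ℝ →ᵇ M)) (XS b σ r t) (XS b σ r (t + 2 * R))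
      (fun s w => lhA (sT R v) R (s, w)) := by
  have hT := tr_sT hU hR hRρ v
  refine IsHtpy.of_continuousOn (isCompact_XS b σ r ht) ?_ (fun s hs w hw => ?_)
    fun _ _ i => i.elim
  · exact (continuousOn_lhAB (b := b) hT ht).mono (prod_mono le_rfl (XS_sub_ball hv hr))
  · have h1 := lhA_memB (b := b) hT ht hs.1 (XS_sub_ball hv hr hw)
    refine ⟨P_subset_PF h1, ?_⟩
    show lhA (sT R v) R (s, w) 0 ∈ Bs σ r
    rw [eq_left h1 le_rfl]
    exact hw.2

/-- Second homotopy. -/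
theorem htpyB (hU : LS.UniqSeg M ρ) (hR : 0 < R) (hRρ : R < ρ) (hv : v ∈ σ) (hr : r ≤ R)
    (ht : 0 ≤ t) : IsHtpy (tr (ℝ →ᵇ M)) (tr (ℝ →ᵇ M)) (XS b σ r t)
      (XS b σ (2 * r) (t + 2 * R))
      (fun s w => lback (sT R v) R (LS.seg (w 0) v s, lcut (sT R v) R w)) := by
  have hT := tr_sT hU hR hRρ v
  have hb : ∀ w ∈ XS b σ r t, ∀ s ∈ Icc (0 : ℝ) 1, LS.seg (w 0) v s ∈ Metric.closedBall v R := by
    intro w hw s hs
    have h1 : dist (w 0) v ≤ r := hw.2 v hv
    rw [Metric.mem_closedBall, LS.dist_seg_right hU (by linarith) hs]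
    exact ((mul_le_of_le_one_left dist_nonneg (by linarith [hs.1])).trans h1).trans hr
  have hc : ∀ w ∈ XS b σ r t, lcut (sT R v) R w ∈ P v b (t + R) := fun w hw =>
    lcut_memB hT ht (XS_sub_ball hv hr hw)
  refine IsHtpy.of_continuousOn (isCompact_XS b σ r ht) ?_ (fun s hs w hw => ?_)
    fun _ _ i => i.elim
  · refine continuousOn_lback'B (b := b) (t := t + R) hT (by linarith) ?_ ?_ (fun p hp => ?_)
      fun p hp => hc _ hp.2
    · refine LS.ContinuousOn.seg hU (continuousOn_eval continuousOn_snd continuousOn_const)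
        continuousOn_const continuousOn_fst (fun p hp => ?_) fun p hp => hp.1
      have h1 : dist (p.2 0) v ≤ r := hp.2.2 v hv
      linarith
    · exact continuousOn_lcut'B (b := b) hT ht continuousOn_snd fun p hp =>
        XS_sub_ball hv hr hp.2
    · exact hb _ hp.2 _ hp.1
  · have h1 := lback_memB (b := b) (p := (LS.seg (w 0) v s, lcut (sT R v) R w)) hT
      (by linarith : 0 ≤ t + R) (hb w hw s hs) (hc w hw)
    have e : t + R + R = t + 2 * R := by ring
    rw [e] at h1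
    refine ⟨P_subset_PF h1, ?_⟩
    show lback (sT R v) R (LS.seg (w 0) v s, lcut (sT R v) R w) 0 ∈ Bs σ (2 * r)
    rw [eq_left h1 le_rfl]
    exact Bs_seg hU hv (hr.trans_lt hRρ) hw.2 hs

/-- The map to the fibre. -/
noncomputable def toF (R : ℝ) (v : M) (w : ℝ →ᵇ M) : ℝ →ᵇ M :=
  lback (sT R v) R (v, lcut (sT R v) R w)

theorem toF_map (hU : LS.UniqSeg M ρ) (hR : 0 < R) (hRρ : R < ρ) (hv : v ∈ σ) (hr : r ≤ R)
    (ht : 0 ≤ t) : IsMap (tr (ℝ →ᵇ M)) (tr (ℝ →ᵇ M)) (XS b σ r t) (P v b (t + 2 * R))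
      (toF R v) := by
  have hT := tr_sT hU hR hRρ v
  have h0 : v ∈ Metric.closedBall v R := Metric.mem_closedBall_self hR.le
  refine map_of_cont (isCompact_XS b σ r ht) ?_ fun w hw => ?_
  · exact continuousOn_lback'B (b := b) (t := t + R) hT (by linarith) continuousOn_const
      (continuousOn_lcut'B (b := b) hT ht continuousOn_id fun w hw => XS_sub_ball hv hr hw)
      (fun _ _ => h0) fun w hw => lcut_memB hT ht (XS_sub_ball hv hr hw)
  · have h1 := lback_memB (b := b) (p := (v, lcut (sT R v) R w)) hT (by linarith : 0 ≤ t + R) h0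
      (lcut_memB hT ht (XS_sub_ball hv hr hw))
    have e : t + R + R = t + 2 * R := by ring
    rwa [e] at h1

variable {k : Type} [Field k] {m : ℕ} {f : List (ℝ →ᵇ M) → k}

/-- `f` is homotopic to its pull back from the fibre over `v`. -/
theorem exC_toF (hU : LS.UniqSeg M ρ) (hR : 0 < R) (hRρ : R < ρ) (hv : v ∈ σ) (hr0 : 0 ≤ r)
    (hr : r ≤ R) (ht : 0 ≤ t) (hf : CocL (XS b σ (2 * r) (t + 2 * R)) m f) :
    ExC (XS b σ r t) m fun l => f (l.map (toF R v)) - f l := by
  have hT := tr_sT hU hR hRρ v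
  have hA := exC_htpy (htpyA (b := b) hU hR hRρ hv hr ht)
    (hf.mono (XS_mono (fun _ h => h) (by linarith) le_rfl))
  have hB := exC_htpy (htpyB (b := b) hU hR hRρ hv hr ht) hf
  refine (hA.add hB).congr fun l hl => ?_
  have e0 : l.map (fun w => lhA (sT R v) R (0, w)) = l := by
    conv_rhs => rw [← List.map_id l]
    exact List.map_congr_left fun w hw => lhA_zeroB hT (XS_sub_ball hv hr (hl w hw))
  have e1 : l.map (fun w => lhA (sT R v) R (1, w)) =
      l.map (fun w => lback (sT R v) R (LS.seg (w 0) v 0, lcut (sT R v) R w)) :=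
    List.map_congr_left fun w hw => by
      rw [LS.seg_zero]
      exact lhA_oneB hT (XS_sub_ball hv hr (hl w hw))
  have e2 : l.map (fun w => lback (sT R v) R (LS.seg (w 0) v 1, lcut (sT R v) R w)) =
      l.map (toF R v) :=
    List.map_congr_left fun w hw => by
      rw [LS.seg_one]
      rfl
  rw [e0, e1, e2]
  ring

/-- **(I1)** -/
theorem exC_XS (hU : LS.UniqSeg M ρ) (hR : 0 < R) (hRρ : R < ρ) (hv : v ∈ σ) (hr0 : 0 ≤ r)
    (hr : r ≤ R) (ht : 0 ≤ t) (hf : CocL (XS b σ (2 * r) (t + 2 * R)) m f)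
    (h : ExC (P v b (t + 2 * R)) m f) : ExC (XS b σ r t) m f := by
  have h1 := (exC_toF hU hR hRρ hv hr0 hr ht hf).mul (-1)
  have h2 := h.map (toF_map (b := b) hU hR hRρ hv hr ht)
  refine (h1.add h2).congr fun l _ => ?_
  ring

/-- A `0`-cocycle is constant on joined points. -/
theorem coc0_joined {E : Type} [PseudoMetricSpace E] {X : Set E} {f : List E → k}
    (hf : CocL X 0 f) {x y : E} (h : JoinedIn X x y) : f [x] = f [y] := by
  obtain ⟨ε, hε, hf⟩ := hf
  obtain ⟨γ, hγ⟩ := h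
  have hS := isPreconnected_range γ.continuous
  refine hS.induction₂ (fun v w => f [v] = f [w]) (fun v hv => ?_)
    (fun _ _ _ _ _ _ h h' => h.trans h') (fun _ _ _ _ h => h.symm) ⟨0, γ.source⟩ ⟨1, γ.target⟩
  have h1 : ∀ᶠ w in 𝓝[range γ] v, dist v w < ε := by
    have := Metric.ball_mem_nhds v hε
    filter_upwards [mem_nhdsWithin_of_mem_nhds this] with w hw
    rw [dist_comm]
    exact hw
  filter_upwards [h1, self_mem_nhdsWithin] with w hw hwS
  have hX : ∀ z ∈ range γ, z ∈ X := by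
    rintro _ ⟨s, rfl⟩
    exact hγ s
  have h2 := hf [v, w] rfl ⟨fun z hz => ?_, fun z hz z' hz' => ?_⟩
  · rw [dl_cons, dl_one] at h2
    exact (sub_eq_zero.1 h2).symm
  · simp only [List.mem_cons, List.not_mem_nil, or_false] at hz
    rcases hz with rfl | rfl
    · exact hX _ hv
    · exact hX _ hwS
  · simp only [List.mem_cons, List.not_mem_nil, or_false] at hz hz'
    rcases hz with rfl | rfl <;> rcases hz' with rfl | rfl
    · rwa [dist_self]
    · exact hw
    · rwa [dist_comm]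
    · rwa [dist_self]

/-- **(I1) in degree `0`.** -/
theorem exC_XS_zero {D : ℝ} (hD : Sl.IsPi M D) (hU : LS.UniqSeg M ρ) (hR : 0 < R) (hRρ : R < ρ)
    (hv : v ∈ σ) (hr0 : 0 ≤ r) (hr : r ≤ R) (ht : 0 ≤ t)
    (hf : CocL (XS b σ (2 * r) (t + 2 * R)) 0 f) (hf' : CocL (P v b (t + 2 * R + D)) 0 f) :
    ExC (XS b σ r t) 0 f := by
  refine exC_XS hU hR hRρ hv hr0 hr ht hf ?_
  rcases (P v b (t + 2 * R)).eq_empty_or_nonempty with h | ⟨u, hu⟩
  · rw [h]
    exact exC_empty
  · refine ⟨fun _ => f [u], 1, one_pos, fun l hl hs => ?_⟩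
    obtain ⟨w, rfl⟩ := List.length_eq_one_iff.1 hl
    rw [dl_one]
    exact coc0_joined hf' (hD.join v b _ (by linarith) _ (hs.1 w List.mem_cons_self) _ hu)

end sets

end Vale.Agent.P216.H971.Low
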