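import Vale.Agent.P216.H971.Low
import Vale.Agent.P216.H977C.OmD

/-!
# P216-D, [LOW]: the output forms

`low_hres`: classes (`B64.hres`), per field. `lowLZ`: `LowL`, `LowZ` (H787/CStep), per field.
`lowK`: 977's `LowK`. `lowC`: 313's `LowC`. The inputs `BaseZ`, `BaseL` may be checked on
normalised cocycles.
-/

set_option linter.unusedVariables false
set_option linter.unusedSectionVars false

open Set Finsupp Topology BoundedContinuousFunction

namespace Vale.Agent.P216.H971.Low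

open Sl PS
open Vale.Agent.P216.H901 (tr on)

section base

variable {k : Type} [Field k] {M : Type} [MetricSpace M] {j : ℕ}

/-- Every cocycle is normalised up to a coboundary. -/
theorem exists_nrm {E : Type} [PseudoMetricSpace E] {A : Set E} {m : ℕ} {f : List E → k}
    (hf : CocL A m f) : ∃ g : List E → k, Nrm g ∧ CocL A m g ∧ ExC A m fun l => f l - g l := by
  obtain ⟨g, hg, ng, e⟩ := exists_cls (cls (tr E) (on k) f hf)
  exact ⟨g, ng, hg, exC_of_exL (cls_eq_cls.1 e.symm)⟩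

theorem baseZ_of (hj : j ≠ 0) (h : ∀ f : List M → k, Nrm f → CocL (univ : Set M) j f →
    ExL (univ : Set M) j f) : BaseZ k M j := by
  intro f hf
  obtain ⟨g, ng, hg, he⟩ := exists_nrm hf
  refine ExC.exL ((he.add (exC_of_exL (h g ng hg))).congr fun l _ => ?_) hj
  ring

theorem baseL_of (hj : j ≠ 0) (h : ∀ f f' : List M → k, Nrm f → Nrm f' →
    CocL (univ : Set M) j f → CocL (univ : Set M) j f' →
    ∃ c c' : k, (c ≠ 0 ∨ c' ≠ 0) ∧ ExL (univ : Set M) j fun l => c * f l + c' * f' l) :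
    BaseL k M j := by
  intro f f' hf hf'
  obtain ⟨g, ng, hg, he⟩ := exists_nrm hf
  obtain ⟨g', ng', hg', he'⟩ := exists_nrm hf'
  obtain ⟨c, c', hc, hex⟩ := h g g' ng ng' hg hg'
  refine ⟨c, c', hc, ExC.exL ((((he.mul c).add (he'.mul c')).add (exC_of_exL hex)).congr
    fun l _ => ?_) hj⟩
  ring

/-- Rank `≤ 1` from a generator. -/
theorem baseL_of_gen {x : List M → k} (hj : j ≠ 0) (h : ∀ f : List M → k,
    CocL (univ : Set M) j f → ∃ c : k, ExL (univ : Set M) j fun l => f l - c * x l) :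
    BaseL k M j := by
  intro f f' hf hf'
  obtain ⟨c, hc⟩ := h f hf
  obtain ⟨c', hc'⟩ := h f' hf'
  by_cases h0 : c = 0
  · refine ⟨1, 0, Or.inl one_ne_zero, ExC.exL ((exC_of_exL hc).congr fun l _ => ?_) hj⟩
    rw [h0]
    ring
  · refine ⟨c', -c, Or.inr (neg_ne_zero.2 h0), ExC.exL ((((exC_of_exL hc).mul c').add
      ((exC_of_exL hc').mul (-c))).congr fun l _ => ?_) hj⟩
    ring

end base

variable (M : Type) [MetricSpace M] [CompactSpace M] [SimplyConnectedSpace M] {ρ : ℝ}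

/-- **[LOW], classes**, for one field; the constant depends on `M` and `d` only. -/
theorem low_hres (hρ : 0 < ρ) (hU : LS.UniqSeg M ρ) (d : ℕ) : ∃ B, 0 ≤ B ∧
    ∀ (k : Type) [Field k], (∀ j, 0 < j → j < d → BaseZ k M j) → BaseL k M d →
      ∀ (a b : M) (t : ℝ), 0 ≤ t → ∀ (h : P a b t ⊆ P a b (t + B)) (j : ℕ), 0 < j → j ≤ d - 1 →
        (∀ z z' : B64.HU k (P a b (t + B)) j, ∃ c c' : k, (c ≠ 0 ∨ c' ≠ 0) ∧
          B64.hres k h j (c • z + c' • z') = 0) ∧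
        (j < d - 1 → ∀ z : B64.HU k (P a b (t + B)) j, B64.hres k h j z = 0) := by
  obtain ⟨B, hB, H⟩ := low_all M hρ hU d
  refine ⟨B, hB, fun k _ hb hb' a b t ht h j hj hjd => ⟨fun z z' => ?_, fun hjd' z => ?_⟩⟩
  · obtain ⟨f, hf, -, rfl⟩ := exists_cls z
    obtain ⟨f', hf', -, rfl⟩ := exists_cls z'
    obtain ⟨c, c', hc, hex⟩ := (H k hb hb').1 j hj (by omega) a b t ht f f' hf hf'
    refine ⟨c, c', hc, ?_⟩
    rw [B64.hres, cls_smul, cls_smul, cls_add, res_cls, cls_eq_zero]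
    exact hex.exL hj.ne'
  · obtain ⟨f, hf, -, rfl⟩ := exists_cls z
    rw [B64.hres, res_cls, cls_eq_zero]
    exact ((H k hb hb').2 j hj (by omega) a b t ht f hf).exL hj.ne'

/-- **[LOW], lists** (`LowL`, `LowZ` of H787/CStep), for one field. -/
theorem lowLZ (hρ : 0 < ρ) (hU : LS.UniqSeg M ρ) (d : ℕ) : ∃ B, 0 ≤ B ∧
    ∀ (k : Type) [Field k], (∀ j, 0 < j → j < d → BaseZ k M j) → BaseL k M d →
      (∀ i, 0 < i → i ≤ d - 1 → LowL k M B i) ∧ ∀ i, 0 < i → i < d - 1 → LowZ k M B i := by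
  obtain ⟨B, hB, H⟩ := low_all M hρ hU d
  refine ⟨B, hB, fun k _ hb hb' => ⟨fun i hi hid a b t ht f f' nf nf' hf hf' => ?_,
    fun i hi hid a b t ht f nf hf => ?_⟩⟩
  · obtain ⟨c, c', hc, hex⟩ := (H k hb hb').1 i hi (by omega) a b t ht f f' hf hf'
    exact ⟨c, c', hc, hex.exL hi.ne'⟩
  · exact ((H k hb hb').2 i hi (by omega) a b t ht f hf).exL hi.ne'

/-- **[LOW]** in the form of `H977C/OmD.lean`. -/
theorem lowK (Kf : H977C.Fld) (hρ : 0 < ρ) (hU : LS.UniqSeg M ρ) (d : ℕ)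
    (hb : ∀ (k : Type) [Field k], Kf k → (∀ j, 0 < j → j < d → BaseZ k M j) ∧ BaseL k M d) :
    ∃ B, 0 ≤ B ∧ H977C.LowK Kf M (d - 1) B := by
  obtain ⟨B, hB, H⟩ := lowLZ M hρ hU d
  exact ⟨B, hB, fun k _ hk => H k (hb k hk).1 (hb k hk).2⟩

/-- **[LOW]** in the form of `C313/Low.lean`. -/
theorem lowC (hρ : 0 < ρ) (hU : LS.UniqSeg M ρ) (d : ℕ)
    (hb : ∀ (k : Type) [Field k], (2 : k) ≠ 0 → (∀ j, 0 < j → j < d → BaseZ k M j) ∧ BaseL k M d) :
    ∃ B, 0 ≤ B ∧ C313.LowC M (d - 1) B := by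
  obtain ⟨B, hB, H⟩ := low_hres M hρ hU d
  exact ⟨B, hB, fun k _ h2 => H k (hb k h2).1 (hb k h2).2⟩

end Vale.Agent.P216.H971.Low
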