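import Vale.Agent.P216.H311.Points
import Vale.Agent.P216.H787.Fib
import Vale.Agent.P216.N970.Seg

/-!
# Independence of the mesh for fibre integrals

* `exists_prism`: contiguous maps of `δ`-fine cycles give homologous cycles;
* `cycle_bd` (M1): a `δ`-fine 1-cycle of an interval is the boundary of a `δ`-fine 2-chain;
* `fib_mesh`, `fibL_mesh` (M2), `ev_sh_mesh`, `ev_sh_mesh_left` (M3): independence of the mesh;
* `fib_tail`, `fibL_tail`, `ev_sh_tail`, `ev_sh_tail_left` (M4): longer intervals.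
-/

open Set Finsupp

namespace Vale.Agent.P216.H971

open Sl PS

variable {k : Type} [Field k]

/-- Lists of length `n` with entries in `X` and mutual distances `< δ`. -/
def Lf {E : Type} [PseudoMetricSpace E] (X : Set E) (δ : ℝ) (n : ℕ) (l : List E) : Prop :=
  l.length = n ∧ SmL X δ l

section Prism

variable {E E' : Type} [PseudoMetricSpace E] [PseudoMetricSpace E'] {X : Set E} {X' : Set E'}
  {δ δ' : ℝ}

theorem Lf_Ln {n : ℕ} {c : Ch k E} (hc : c ∈ Sp k (Lf X δ n)) : c ∈ Sp k (Ln n) :=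
  Sp_mono (fun _ h => h.1) hc

/-- A list of the grid `s × t` is fine. -/
theorem SmL_gr {s : List E} {t : List E'} {l : List (E × E')} (hs : SmL X δ s) (ht : SmL X' δ t)
    (hl : Gr s t l) : SmL (X ×ˢ X') δ l :=
  ⟨fun x hx => ⟨hs.1 _ (hl.2 x hx).1, ht.1 _ (hl.2 x hx).2⟩, fun x hx y hy => by
    rw [Prod.dist_eq]
    exact max_lt (hs.2 _ (hl.2 x hx).1 _ (hl.2 y hy).1) (ht.2 _ (hl.2 x hx).2 _ (hl.2 y hy).2)⟩

theorem sh_Lf {p q : ℕ} {c : Ch k E} {c' : Ch k E'} (hc : c ∈ Sp k (Lf X δ (p + 1)))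
    (hc' : c' ∈ Sp k (Lf X' δ (q + 1))) : sh c c' ∈ Sp k (Lf (X ×ˢ X') δ (p + q + 1)) :=
  sh_mem (fun s t l hs ht hl => by
    refine ⟨?_, SmL_gr hs.2 ht.2 hl⟩
    have h1 := hs.1
    have h2 := ht.1
    have h3 := hl.1
    omega) hc hc'

/-- Contiguous maps send a fine cycle to homologous cycles. -/
theorem exists_prism {f₀ f₁ : E → E'} (h₀ : MapsTo f₀ X X') (h₁ : MapsTo f₁ X X')
    (hc : ∀ x ∈ X, ∀ y ∈ X, dist x y < δ →
      dist (f₀ x) (f₀ y) < δ' ∧ dist (f₀ x) (f₁ y) < δ' ∧ dist (f₁ x) (f₁ y) < δ')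
    {p : ℕ} {c : Ch k E} (hs : c ∈ Sp k (Lf X δ (p + 1))) (hb : bd c = 0) :
    ∃ e ∈ Sp k (Lf X' δ' (p + 2)), bd e = mp f₁ c - mp f₀ c := by
  have h1 := bd_sh (k := k) (p := p) (q := 1) (by omega) (Lf_Ln hs)
    (single_Ln (l := [false, true]) (by simp) 1)
  have e1 : bd (single [false, true] (1 : k)) = single [true] 1 - single [false] 1 := by
    rw [bd_single, one_smul]
    simp [bdL_cons, bdL_nil]
  rw [hb, map_zero, LinearMap.zero_apply, zero_add, e1, map_sub,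
    sh_point_right true (Ln_ne (Lf_Ln hs)), sh_point_right false (Ln_ne (Lf_Ln hs))] at h1
  refine ⟨(-1 : k) ^ p • mp (two f₀ f₁) (sh c (single [false, true] 1)), ?_, ?_⟩
  · refine Submodule.smul_mem _ _ (map_mem _ (fun l hl => ?_)
      (sh_mem (R := fun l => ∃ s, Lf X δ (p + 1) s ∧ Gr s [false, true] l)
        (fun s t l hs ht hl => ⟨s, hs, by rw [← ht]; exact hl⟩) hs
        (single_mem (P := fun t => t = [false, true]) rfl 1)))
    obtain ⟨s, hs, hl⟩ := hl
    rw [mp_single]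
    refine single_mem ⟨?_, ?_, ?_⟩ _
    · have h2 := hs.1
      have h3 := hl.1
      simp only [List.length_cons, List.length_nil, List.length_map] at h3 ⊢
      omega
    · intro y hy
      obtain ⟨x, hx, rfl⟩ := List.mem_map.1 hy
      have hx' := hs.2.1 _ (hl.2 x hx).1
      rw [two]
      split_ifs
      · exact h₁ hx'
      · exact h₀ hx'
    · intro y hy y' hy'
      obtain ⟨x, hx, rfl⟩ := List.mem_map.1 hy
      obtain ⟨z, hz, rfl⟩ := List.mem_map.1 hy'
      have hx' := (hl.2 x hx).1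
      have hz' := (hl.2 z hz).1
      have h4 := hc _ (hs.2.1 _ hx') _ (hs.2.1 _ hz') (hs.2.2 _ hx' _ hz')
      have h5 := hc _ (hs.2.1 _ hz') _ (hs.2.1 _ hx') (hs.2.2 _ hz' _ hx')
      rw [two, two]
      split_ifs
      · exact h4.2.2
      · rw [dist_comm]; exact h5.2.1
      · exact h4.2.1
      · exact h4.1
  · rw [map_smul, bd_mp, h1, map_smul, smul_smul, ← mul_pow, map_sub]
    have e2 : mp (two f₀ f₁) (mp (fun a => (a, true)) c) = (mp f₁ c : Ch k E') :=
      lin_ext_apply (f := mp (two f₀ f₁) ∘ₗ mp fun a => (a, true)) (g := mp f₁)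
        (fun l => by simp [two, Function.comp_def]) c
    have e3 : mp (two f₀ f₁) (mp (fun a => (a, false)) c) = (mp f₀ c : Ch k E') :=
      lin_ext_apply (f := mp (two f₀ f₁) ∘ₗ mp fun a => (a, false)) (g := mp f₀)
        (fun l => by simp [two, Function.comp_def]) c
    rw [e2, e3]
    simp

end Prism

/-! ### (M1) -/

/-- Cycles of the interval, cut off at `a + n η`. -/
theorem exists_cut {a b δ η : ℝ} (hη : 0 ≤ η) (hηδ : η < δ) {c : Ch k ℝ}
    (hs : c ∈ Sp k (Lf (Icc a b) δ 2)) (hb : bd c = 0) (n : ℕ) :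
    ∃ e ∈ Sp k (Lf (Icc a b) δ 3), bd e = mp (fun x => min x (a + n * η)) c := by
  induction n with
  | zero =>
    refine ⟨ev (fun _ => 1) c • single [a, a, a] 1, ?_, ?_⟩
    · by_cases hab : a ≤ b
      · refine Submodule.smul_mem _ _ (single_mem ⟨rfl, fun x hx => ?_, fun x hx y hy => ?_⟩ _)
        · simp only [List.mem_cons, List.not_mem_nil, or_false, or_self] at hx
          rw [hx]
          exact ⟨le_rfl, hab⟩
        · simp only [List.mem_cons, List.not_mem_nil, or_false, or_self] at hx hy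
          rw [hx, hy, dist_self]
          exact hη.trans_lt hηδ
      · have h0 : ev (fun _ => (1 : k)) c = 0 := by
          refine ev_zero_of (fun l hl => ?_) hs
          rcases l with _ | ⟨x, l⟩
          · simpa [Lf] using hl.1
          · have hx := hl.2.1 x List.mem_cons_self
            exact absurd (hx.1.trans hx.2) hab
        rw [h0, zero_smul]
        exact Submodule.zero_mem _
    · have h1 : mp (fun x => min x (a + (0 : ℕ) * η)) c = ev (fun _ => 1) c • single [a, a] 1 := by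
        refine eq_of_mem (F := mp fun x => min x (a + (0 : ℕ) * η))
          (G := (ev fun _ => (1 : k)).smulRight (single [a, a] 1)) (fun l hl => ?_) hs
        obtain ⟨hl1, hl2⟩ := hl
        obtain ⟨x, y, rfl⟩ := List.length_eq_two.1 hl1
        have hx := (hl2.1 x (by simp)).1
        have hy := (hl2.1 y (by simp)).1
        rw [mp_single, LinearMap.smulRight_apply, ev_single, one_mul, one_smul]
        simp [hx, hy]
      rw [h1, map_smul, bd_single, one_smul]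
      congr 1
      simp [bdL_cons, bdL_nil]
  | succ n ih =>
    obtain ⟨e, he, hbe⟩ := ih
    have hclose : |a + n * η - (a + (n + 1 : ℕ) * η)| < δ := by
      have : a + n * η - (a + (n + 1 : ℕ) * η) = -η := by push_cast; ring
      rw [this, abs_neg, abs_of_nonneg hη]
      exact hηδ
    obtain ⟨e', he', hbe'⟩ := exists_prism (k := k) (X := Icc a b) (X' := Icc a b) (δ := δ)
      (δ' := δ) (f₀ := fun x => min x (a + n * η)) (f₁ := fun x => min x (a + (n + 1 : ℕ) * η))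
      (fun x hx => ⟨le_min hx.1 (by nlinarith [Nat.cast_nonneg (α := ℝ) n]),
        (min_le_left _ _).trans hx.2⟩)
      (fun x hx => ⟨le_min hx.1 (by nlinarith [Nat.cast_nonneg (α := ℝ) (n + 1)]),
        (min_le_left _ _).trans hx.2⟩)
      (fun x _ y _ hxy => by
        have hδ : 0 < δ := hη.trans_lt hηδ
        rw [Real.dist_eq] at hxy
        refine ⟨?_, ?_, ?_⟩ <;> rw [Real.dist_eq]
        · refine (abs_min_sub_min_le_max _ _ _ _).trans_lt (max_lt hxy ?_)
          simpa using hδ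
        · exact (abs_min_sub_min_le_max _ _ _ _).trans_lt (max_lt hxy hclose)
        · refine (abs_min_sub_min_le_max _ _ _ _).trans_lt (max_lt hxy ?_)
          simpa using hδ) hs hb
    exact ⟨e + e', Submodule.add_mem _ he he', by rw [map_add, hbe, hbe']; abel⟩

/-- **(M1)** A `δ`-fine 1-cycle of an interval is the boundary of a `δ`-fine 2-chain. -/
theorem cycle_bd {a b δ : ℝ} {c : Ch k ℝ}
    (hc : c ∈ Sp k (fun l => l.length = 2 ∧ SmL (Icc a b) δ l)) (hb : bd c = 0) :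
    ∃ e ∈ Sp k (fun l => l.length = 3 ∧ SmL (Icc a b) δ l), bd e = c := by
  by_cases hδ : 0 < δ
  · obtain ⟨n, hn⟩ := exists_nat_ge ((b - a) / (δ / 2))
    obtain ⟨e, he, hbe⟩ := exists_cut (η := δ / 2) (by positivity) (by linarith) hc hb n
    refine ⟨e, he, hbe.trans ?_⟩
    have hn' : b - a ≤ n * (δ / 2) := (div_le_iff₀ (by positivity)).1 hn
    refine eq_of_mem (F := mp fun x => min x (a + n * (δ / 2))) (G := LinearMap.id)
      (fun l hl => ?_) hc
    rw [mp_single, LinearMap.id_apply]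
    congr 1
    conv_rhs => rw [← List.map_id l]
    exact List.map_congr_left fun x hx => min_eq_left (by
      have := (hl.2.1 x hx).2
      linarith)
  · have h0 : c = 0 := by
      refine eq_of_mem (F := LinearMap.id) (G := 0) (fun l hl => ?_) hc
      obtain ⟨hl1, hl2⟩ := hl
      obtain ⟨x, y, rfl⟩ := List.length_eq_two.1 hl1
      have h1 := hl2.2 x (by simp) x (by simp)
      rw [dist_self] at h1
      exact absurd h1 hδ
    exact ⟨0, Submodule.zero_mem _, by rw [h0, map_zero]⟩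

/-! ### (M2), (M3) -/

section Mesh

variable {E : Type} [PseudoMetricSpace E] {X : Set E} {a b δ : ℝ}

/-- The fibre integral over a fine cycle is a coboundary. -/
theorem fib_cycle {p : ℕ} {f : List (E × ℝ) → k}
    (hf : ∀ l, l.length = p + 3 → SmL (X ×ˢ Icc a b) δ l → dl f l = 0) {c : Ch k ℝ}
    (hc : c ∈ Sp k (Lf (Icc a b) δ 2)) (hb : bd c = 0) :
    ∃ g : List E → k, ∀ s, s.length = p + 1 → SmL X δ s → fib f c s = dl g s := by
  obtain ⟨e, he, hbe⟩ := cycle_bd hc hb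
  refine ⟨fun s => -(-1 : k) ^ p * fib f e s, fun s hs1 hs2 => ?_⟩
  have hs : single s (1 : k) ∈ Sp k (Lf X δ (p + 1)) := single_mem ⟨hs1, hs2⟩ 1
  have h1 := bd_sh (k := k) (p := p) (q := 2) (by omega) (Lf_Ln hs) (Lf_Ln he)
  have h2 := congrArg (ev f) h1
  have h3 : ev f (bd (sh (single s (1 : k)) e)) = 0 := by
    rw [← ev_dl]
    exact ev_zero_of (fun l hl => hf l hl.1 hl.2) (sh_Lf (q := 2) hs he)
  rw [h3, hbe, bd_single, one_smul, map_add, map_smul, smul_eq_mul] at h2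
  have h4 : dl (fun s => -(-1 : k) ^ p * fib f e s) s = -(-1 : k) ^ p * ev f (sh (bdL s) e) := by
    rw [dl_smul, dl, ev_fib]
  have h5 : (-1 : k) ^ p * (-1) ^ p = 1 := by
    rw [← mul_pow]
    simp
  rw [h4]
  change ev f (sh (single s 1) c) = _
  linear_combination (-(-1 : k) ^ p) * h2 - ev f (sh (single s 1) c) * h5

/-- The fibre integral over a fine cycle in the first factor is a coboundary. -/
theorem fibL_cycle {p : ℕ} {f : List (ℝ × E) → k}
    (hf : ∀ l, l.length = p + 3 → SmL (Icc a b ×ˢ X) δ l → dl f l = 0) {c : Ch k ℝ}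
    (hc : c ∈ Sp k (Lf (Icc a b) δ 2)) (hb : bd c = 0) :
    ∃ g : List E → k, ∀ s, s.length = p + 1 → SmL X δ s → fibL f c s = dl g s := by
  obtain ⟨e, he, hbe⟩ := cycle_bd hc hb
  refine ⟨fun s => (-1 : k) * fibL f e s, fun s hs1 hs2 => ?_⟩
  have hs : single s (1 : k) ∈ Sp k (Lf X δ (p + 1)) := single_mem ⟨hs1, hs2⟩ 1
  have h1 := bd_sh (k := k) (p := 2) (q := p) (by omega) (Lf_Ln he) (Lf_Ln hs)
  have h2 := congrArg (ev f) h1
  have h3 : ev f (bd (sh e (single s (1 : k)))) = 0 := by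
    rw [← ev_dl]
    refine ev_zero_of (fun l hl => hf l ?_ hl.2) (sh_Lf (p := 2) he hs)
    have := hl.1
    omega
  rw [h3, hbe, bd_single, one_smul, map_add, map_smul, smul_eq_mul] at h2
  have h4 : dl (fun s => (-1 : k) * fibL f e s) s = (-1 : k) * ev f (sh e (bdL s)) := by
    rw [dl_smul, dl, ev_fibL]
  rw [h4]
  change ev f (sh c (single s 1)) = _
  linear_combination -h2

theorem fib_sub_chain {α β : Type} (f : List (α × β) → k) (ι ι' : Ch k β) (s : List α) :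
    fib f (ι - ι') s = fib f ι s - fib f ι' s := by
  rw [fib, fib, fib, map_sub, map_sub]

theorem fib_add_chain {α β : Type} (f : List (α × β) → k) (ι ι' : Ch k β) (s : List α) :
    fib f (ι + ι') s = fib f ι s + fib f ι' s := by
  rw [fib, fib, fib, map_add, map_add]

theorem fibL_sub_chain {α β : Type} (f : List (α × β) → k) (ι ι' : Ch k α) (s : List β) :
    fibL f (ι - ι') s = fibL f ι s - fibL f ι' s := by
  rw [fibL, fibL, fibL, map_sub, LinearMap.sub_apply, map_sub]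

theorem fibL_add_chain {α β : Type} (f : List (α × β) → k) (ι ι' : Ch k α) (s : List β) :
    fibL f (ι + ι') s = fibL f ι s + fibL f ι' s := by
  rw [fibL, fibL, fibL, map_add, LinearMap.add_apply, map_add]

/-- **(M2)** Fibre integrals over two fine chains with the same boundary. -/
theorem fib_mesh {p : ℕ} {f : List (E × ℝ) → k}
    (hf : ∀ l, l.length = p + 3 → SmL (X ×ˢ Icc a b) δ l → dl f l = 0) {ι ι' : Ch k ℝ}
    (hι : ι ∈ Sp k (fun l => l.length = 2 ∧ SmL (Icc a b) δ l))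
    (hι' : ι' ∈ Sp k (fun l => l.length = 2 ∧ SmL (Icc a b) δ l)) (hb : bd ι = bd ι') :
    ∃ g : List E → k, ∀ s, s.length = p + 1 → SmL X δ s → fib f ι s - fib f ι' s = dl g s := by
  obtain ⟨g, hg⟩ := fib_cycle (k := k) (X := X) hf (c := ι - ι') (Submodule.sub_mem _ hι hι')
    (by rw [map_sub, hb, sub_self])
  exact ⟨g, fun s h1 h2 => by rw [← hg s h1 h2, fib_sub_chain]⟩

/-- **(M2)** for integrals over the first factor. -/
theorem fibL_mesh {p : ℕ} {f : List (ℝ × E) → k}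
    (hf : ∀ l, l.length = p + 3 → SmL (Icc a b ×ˢ X) δ l → dl f l = 0) {ι ι' : Ch k ℝ}
    (hι : ι ∈ Sp k (fun l => l.length = 2 ∧ SmL (Icc a b) δ l))
    (hι' : ι' ∈ Sp k (fun l => l.length = 2 ∧ SmL (Icc a b) δ l)) (hb : bd ι = bd ι') :
    ∃ g : List E → k, ∀ s, s.length = p + 1 → SmL X δ s → fibL f ι s - fibL f ι' s = dl g s := by
  obtain ⟨g, hg⟩ := fibL_cycle (k := k) (X := X) hf (c := ι - ι') (Submodule.sub_mem _ hι hι')
    (by rw [map_sub, hb, sub_self])
  exact ⟨g, fun s h1 h2 => by rw [← hg s h1 h2, fibL_sub_chain]⟩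

/-- Cycles kill functions which are coboundaries on fine lists. -/
theorem ev_eq_zero_of_dl {p : ℕ} {F g : List E → k}
    (h : ∀ s, s.length = p → SmL X δ s → F s = dl g s) {z : Ch k E}
    (hz : z ∈ Sp k (fun l => l.length = p ∧ SmL X δ l)) (hbz : bd z = 0) : ev F z = 0 := by
  rw [ev_congr (g := dl g) (fun l hl => h l hl.1 hl.2) hz, ev_dl, hbz, map_zero]

/-- **(M3)** -/
theorem ev_sh_mesh {p : ℕ} {f : List (E × ℝ) → k}
    (hf : ∀ l, l.length = p + 3 → SmL (X ×ˢ Icc a b) δ l → dl f l = 0) {ι ι' : Ch k ℝ}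
    (hι : ι ∈ Sp k (fun l => l.length = 2 ∧ SmL (Icc a b) δ l))
    (hι' : ι' ∈ Sp k (fun l => l.length = 2 ∧ SmL (Icc a b) δ l)) (hb : bd ι = bd ι')
    {z : Ch k E} (hz : z ∈ Sp k (fun l => l.length = p + 1 ∧ SmL X δ l)) (hbz : bd z = 0) :
    ev f (sh z ι) = ev f (sh z ι') := by
  obtain ⟨g, hg⟩ := fib_cycle (k := k) (X := X) hf (c := ι - ι') (Submodule.sub_mem _ hι hι')
    (by rw [map_sub, hb, sub_self])
  have h1 := ev_eq_zero_of_dl hg hz hbz
  rw [ev_fib, map_sub, map_sub] at h1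
  exact sub_eq_zero.1 h1

/-- **(M3)** for integrals over the first factor. -/
theorem ev_sh_mesh_left {p : ℕ} {f : List (ℝ × E) → k}
    (hf : ∀ l, l.length = p + 3 → SmL (Icc a b ×ˢ X) δ l → dl f l = 0) {ι ι' : Ch k ℝ}
    (hι : ι ∈ Sp k (fun l => l.length = 2 ∧ SmL (Icc a b) δ l))
    (hι' : ι' ∈ Sp k (fun l => l.length = 2 ∧ SmL (Icc a b) δ l)) (hb : bd ι = bd ι')
    {z : Ch k E} (hz : z ∈ Sp k (fun l => l.length = p + 1 ∧ SmL X δ l)) (hbz : bd z = 0) :
    ev f (sh ι z) = ev f (sh ι' z) := by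
  obtain ⟨g, hg⟩ := fibL_cycle (k := k) (X := X) hf (c := ι - ι') (Submodule.sub_mem _ hι hι')
    (by rw [map_sub, hb, sub_self])
  have h1 := ev_eq_zero_of_dl hg hz hbz
  rw [ev_fibL, map_sub, LinearMap.sub_apply, map_sub] at h1
  exact sub_eq_zero.1 h1

/-! ### (M4) -/

/-- A fine chain from `b` to `b'`. -/
theorem exists_fine (k : Type) [Field k] {a b b' : ℝ} (hab : a ≤ b) (hb : b ≤ b') {δ : ℝ}
    (hδ : 0 < δ) : ∃ κ : Ch k ℝ, κ ∈ Sp k (Lf (Icc a b') δ 2) ∧ κ ∈ Sp k (Lf (Icc b b') δ 2) ∧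
      bd κ = single [b'] 1 - single [b] 1 := by
  obtain ⟨N, _, h1, h2, h3⟩ := Sg.exists_seg k hb (half_pos hδ)
  have h4 : Sg.seg k b b' N ∈ Sp k (Lf (Icc b b') δ 2) :=
    Sp_mono (fun l hl => ⟨hl.2, hl.1.1, fun x hx y hy => (hl.1.2 x hx y hy).trans_lt
      (half_lt_self hδ)⟩) (Sg.and_mem h1 h2)
  exact ⟨_, Sp_mono (fun l hl => ⟨hl.1, hl.2.mono (Icc_subset_Icc_left hab) le_rfl⟩) h4, h4, h3⟩

/-- **(M4)** The tail does not contribute to the fibre integral, up to a coboundary. -/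
theorem fib_tail {p : ℕ} {b' : ℝ} (hab : a ≤ b) (hbb : b ≤ b') (hδ : 0 < δ)
    {f : List (E × ℝ) → k}
    (hf : ∀ l, l.length = p + 3 → SmL (X ×ˢ Icc a b') δ l → dl f l = 0)
    (hf0 : ∀ l, l.length = p + 2 → SmL (X ×ˢ Icc b b') δ l → f l = 0) {ι ι' : Ch k ℝ}
    (hι : ι ∈ Sp k (fun l => l.length = 2 ∧ SmL (Icc a b) δ l))
    (hι' : ι' ∈ Sp k (fun l => l.length = 2 ∧ SmL (Icc a b') δ l))
    (hb : bd ι = single [b] 1 - single [a] 1) (hb' : bd ι' = single [b'] 1 - single [a] 1) :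
    ∃ g : List E → k, ∀ s, s.length = p + 1 → SmL X δ s → fib f ι' s - fib f ι s = dl g s := by
  obtain ⟨κ, k1, k2, k3⟩ := exists_fine k hab hbb hδ
  have hι2 : ι ∈ Sp k (fun l => l.length = 2 ∧ SmL (Icc a b') δ l) :=
    Sp_mono (fun l hl => ⟨hl.1, hl.2.mono (Icc_subset_Icc_right hbb) le_rfl⟩) hι
  obtain ⟨g, hg⟩ := fib_mesh (k := k) (X := X) hf hι' (Submodule.add_mem _ hι2 k1)
    (by rw [map_add, hb, hb', k3]; abel)
  refine ⟨g, fun s h1 h2 => ?_⟩
  rw [← hg s h1 h2, fib_add_chain]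
  have h0 : fib f κ s = 0 := by
    refine ev_zero_of (fun l hl => hf0 l hl.1 hl.2)
      (sh_Lf (p := p) (q := 1) (single_mem ⟨h1, h2⟩ 1) k2)
  rw [h0, add_zero]

/-- **(M4)** for integrals over the first factor. -/
theorem fibL_tail {p : ℕ} {b' : ℝ} (hab : a ≤ b) (hbb : b ≤ b') (hδ : 0 < δ)
    {f : List (ℝ × E) → k}
    (hf : ∀ l, l.length = p + 3 → SmL (Icc a b' ×ˢ X) δ l → dl f l = 0)
    (hf0 : ∀ l, l.length = p + 2 → SmL (Icc b b' ×ˢ X) δ l → f l = 0) {ι ι' : Ch k ℝ}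
    (hι : ι ∈ Sp k (fun l => l.length = 2 ∧ SmL (Icc a b) δ l))
    (hι' : ι' ∈ Sp k (fun l => l.length = 2 ∧ SmL (Icc a b') δ l))
    (hb : bd ι = single [b] 1 - single [a] 1) (hb' : bd ι' = single [b'] 1 - single [a] 1) :
    ∃ g : List E → k, ∀ s, s.length = p + 1 → SmL X δ s → fibL f ι' s - fibL f ι s = dl g s := by
  obtain ⟨κ, k1, k2, k3⟩ := exists_fine k hab hbb hδ
  have hι2 : ι ∈ Sp k (fun l => l.length = 2 ∧ SmL (Icc a b') δ l) :=
    Sp_mono (fun l hl => ⟨hl.1, hl.2.mono (Icc_subset_Icc_right hbb) le_rfl⟩) hι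
  obtain ⟨g, hg⟩ := fibL_mesh (k := k) (X := X) hf hι' (Submodule.add_mem _ hι2 k1)
    (by rw [map_add, hb, hb', k3]; abel)
  refine ⟨g, fun s h1 h2 => ?_⟩
  rw [← hg s h1 h2, fibL_add_chain]
  have h0 : fibL f κ s = 0 := by
    refine ev_zero_of (fun l hl => hf0 l ?_ hl.2)
      (sh_Lf (p := 1) (q := p) k2 (single_mem ⟨h1, h2⟩ 1))
    have := hl.1
    omega
  rw [h0, add_zero]

/-- **(M4)** for cycles. -/
theorem ev_sh_tail {p : ℕ} {b' : ℝ} (hab : a ≤ b) (hbb : b ≤ b') (hδ : 0 < δ)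
    {f : List (E × ℝ) → k}
    (hf : ∀ l, l.length = p + 3 → SmL (X ×ˢ Icc a b') δ l → dl f l = 0)
    (hf0 : ∀ l, l.length = p + 2 → SmL (X ×ˢ Icc b b') δ l → f l = 0) {ι ι' : Ch k ℝ}
    (hι : ι ∈ Sp k (fun l => l.length = 2 ∧ SmL (Icc a b) δ l))
    (hι' : ι' ∈ Sp k (fun l => l.length = 2 ∧ SmL (Icc a b') δ l))
    (hb : bd ι = single [b] 1 - single [a] 1) (hb' : bd ι' = single [b'] 1 - single [a] 1)
    {z : Ch k E} (hz : z ∈ Sp k (fun l => l.length = p + 1 ∧ SmL X δ l)) (hbz : bd z = 0) :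
    ev f (sh z ι') = ev f (sh z ι) := by
  obtain ⟨g, hg⟩ := fib_tail (k := k) (X := X) hab hbb hδ hf hf0 hι hι' hb hb'
  have h1 := ev_eq_zero_of_dl (F := fun s => fib f (ι' - ι) s)
    (fun s h1 h2 => by rw [← hg s h1 h2, fib_sub_chain]) hz hbz
  rw [show (fun s => fib f (ι' - ι) s) = fib f (ι' - ι) from rfl, ev_fib, map_sub, map_sub] at h1
  exact sub_eq_zero.1 h1

/-- **(M4)** for cycles, integrals over the first factor. -/
theorem ev_sh_tail_left {p : ℕ} {b' : ℝ} (hab : a ≤ b) (hbb : b ≤ b') (hδ : 0 < δ)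
    {f : List (ℝ × E) → k}
    (hf : ∀ l, l.length = p + 3 → SmL (Icc a b' ×ˢ X) δ l → dl f l = 0)
    (hf0 : ∀ l, l.length = p + 2 → SmL (Icc b b' ×ˢ X) δ l → f l = 0) {ι ι' : Ch k ℝ}
    (hι : ι ∈ Sp k (fun l => l.length = 2 ∧ SmL (Icc a b) δ l))
    (hι' : ι' ∈ Sp k (fun l => l.length = 2 ∧ SmL (Icc a b') δ l))
    (hb : bd ι = single [b] 1 - single [a] 1) (hb' : bd ι' = single [b'] 1 - single [a] 1)
    {z : Ch k E} (hz : z ∈ Sp k (fun l => l.length = p + 1 ∧ SmL X δ l)) (hbz : bd z = 0) :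
    ev f (sh ι' z) = ev f (sh ι z) := by
  obtain ⟨g, hg⟩ := fibL_tail (k := k) (X := X) hab hbb hδ hf hf0 hι hι' hb hb'
  have h1 := ev_eq_zero_of_dl (F := fun s => fibL f (ι' - ι) s)
    (fun s h1 h2 => by rw [← hg s h1 h2, fibL_sub_chain]) hz hbz
  rw [show (fun s => fibL f (ι' - ι) s) = fibL f (ι' - ι) from rfl, ev_fibL, map_sub,
    LinearMap.sub_apply, map_sub] at h1
  exact sub_eq_zero.1 h1

end Mesh

end Vale.Agent.P216.H971
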