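import Vale.Agent.P216.H923E.Hx
import Vale.Agent.P216.H971.LowOut

/-!
# P216-D: the fibre step for the paths to a point, and its null slots

`exists_fibPF`: `FibU` for `X = PF b`, `O = P x₀ b`, with constants which depend on `M` only.
`nullB_PF`, `nullB_PF_zero`: the null slots in the low degrees.
-/

set_option linter.unusedVariables false
set_option linter.unusedSectionVars false

open Set Finsupp Topology BoundedContinuousFunction

namespace Vale.Agent.P216.H971.Low

open Sl PS H456 H923E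
open Vale.Agent.P216.MV337 (evz)
open Vale.Agent.P216.H892 (FibU)
open Vale.Agent.P216.E2L (NullB)

variable {M : Type} [MetricSpace M] [CompactSpace M] {ρ L D c r0 t : ℝ} {x₀ b : M}
  {φ ψ : M → ℝ → (ℝ →ᵇ M) → ℝ →ᵇ M}

/-- **The fibre step for paths to a point.** -/
theorem exists_fibPF [SimplyConnectedSpace M] (hρ : 0 < ρ) (hU : LS.UniqSeg M ρ) (x₀ : M) :
    ∃ c r0 : ℝ, ∀ b : M, ∃ φ ψ : M → ℝ → (ℝ →ᵇ M) → ℝ →ᵇ M,
      FibU evz (fun t => PF b t) (fun t => P x₀ b t) c r0 φ ψ ∧
      ∀ t > 0, UH (fun _ : Unit => P x₀ b t) (fun _ => P x₀ b (t + c)) (fun _ => id)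
        fun _ => φ x₀ t := by
  obtain ⟨R, ℓ₀, D, ℓ, r0, c, T⟩ := exists_tr0 hρ hU x₀
  exact ⟨R + ℓ + (R + ℓ), r0, fun b => ⟨_, _, T.fibU_PF b, T.hx_PF b⟩⟩

variable {k : Type} [Field k] {q : ℕ}

/-- **Null slots** of positive degree, over any `A`. -/
theorem nullB_PF (U : FibU evz (fun t => PF b t) (fun t => P x₀ b t) c r0 φ ψ) (A : Set M)
    (ht : 0 < t) (hL : 0 ≤ L) (hq : 0 < q) (hlow : LowE k M L q) :
    NullB evz A (PF b (t + (2 * c + L))) (PF b t) k q := by
  have hc := U.hc
  have h := U.nullB A (fun t => isCompact_P _ _ _) (T := t + c + L) ht (by linarith)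
    (k := k) (q := q) fun F hF => (hlow x₀ b (t + c) (by linarith) F hF).exL hq.ne'
  have e : t + c + L + c = t + (2 * c + L) := by ring
  rw [← e]
  exact h

/-- **The null slot** of degree `0`, over any `A`. -/
theorem nullB_PF_zero (U : FibU evz (fun t => PF b t) (fun t => P x₀ b t) c r0 φ ψ) (A : Set M)
    (hD : IsPi M D) (ht : 0 < t) : NullB evz A (PF b (t + (2 * c + D))) (PF b t) k 0 := by
  have hc := U.hc
  have hD0 := hD.nonneg
  have h := U.nullB_zero A (T := t + c + D) ht (by linarith) (k := k) fun F hF => by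
    rcases (P x₀ b (t + c)).eq_empty_or_nonempty with h | ⟨u, hu⟩
    · exact ⟨0, fun v hv => absurd hv (by rw [h]; exact notMem_empty v)⟩
    · exact ⟨F [u], fun v hv => coc0_joined hF (hD.join x₀ b _ (by linarith) _ hv _ hu)⟩
  have e : t + c + D + c = t + (2 * c + D) := by ring
  rw [← e]
  exact h

end Vale.Agent.P216.H971.Low
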