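import Vale.Agent.P216.H754B.Fl
import Vale.Agent.P216.H754B.Pw
import Vale.Agent.P216.H901.ShOp
import Vale.Agent.P216.H901.WangPull
import Vale.Agent.P216.B64.RhoDef

/-!
# P216-B, B45 [RHO], topology (R2 = `B64.XRhoGoal`): the exact statements

`f` = reflection conjugated by `M = S^n`; `R` = polygonal approximation of `w ↦ f ∘ w` on Moore
loops (one map for all levels, exactly multiplicative at the times of the mesh).
-/

set_option linter.unusedVariables false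

open Set BoundedContinuousFunction

namespace Vale.Agent.P216.H971

open Vale.Agent.P216.AS Vale.Agent.P216.H901 Vale.Agent.P216.PS Vale.Agent.P216.MV337
open Vale.Agent.P216.B64 Vale.Agent.P216.H754B Vale.Agent.P216.H456
open Vale.Agent.P216.GM
open Vale.Agent.P216.L250 (XE LM fn)

/-! ### [R-A]: caps with a reflection -/

/-- Reflection of the last coordinate of the cube. -/
def rl {m : ℕ} (y : Fin (m + 1) → ℝ) : Fin (m + 1) → ℝ :=
  Fin.snoc (α := fun _ => ℝ) (Fin.init y) (1 - y (Fin.last m))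

/-- A self map of a space with caps which is the reflection on the cell `Dp`. -/
structure CapMap {m : ℕ} {M : Type} [TopologicalSpace M] {x₀ : M} (C : Caps (m + 1) M x₀)
    (f : M → M) : Prop where
  cont : Continuous f
  fix : f x₀ = x₀
  mp : MapsTo f C.Dp C.Dp
  mm : MapsTo f C.Dm C.Dm
  φf : ∀ x ∈ C.Dp, C.φ (f x) = rl (C.φ x)

/-- **[R-A]** -/
def StCapMap : Prop := ∀ (m : ℕ) (M : Type) [TopologicalSpace M], Nonempty (M ≃ₜ Sph (m + 1)) →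
  ∃ (x₀ : M) (C : Caps (m + 1) M x₀) (f : M → M), CapMap C f

/-! ### [R-B]: homotopy of tracks over `f` -/

/-- Tracks over `f`: paths of time `ℓ` from `f x` to `x₀`, `x ∈ D`. -/
structure TrF {M : Type*} [MetricSpace M] (D : Set M) (f : M → M) (x₀ : M) (ℓ : ℝ)
    (T : M → ℝ → M) : Prop where
  nonneg : 0 ≤ ℓ
  lip : ∀ x ∈ D, Lip (T x)
  left : ∀ x ∈ D, ∀ u ≤ 0, T x u = f x
  right : ∀ x ∈ D, ∀ u, ℓ ≤ u → T x u = x₀
  cont : ContinuousOn (fun p : M × ℝ => T p.1 p.2) (D ×ˢ univ)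

/-- **[R-B]**: any two tracks over `f` are homotopic through tracks over `f` (`D` contractible in
itself). -/
def StTrH : Prop := ∀ (M : Type) [MetricSpace M] [CompactSpace M] [SimplyConnectedSpace M]
  (ρ : ℝ), 0 < ρ → LS.UniqSeg M ρ → ∀ (D : Set M), IsClosed D → ∀ (K : M × ℝ → M) (xm : M),
  xm ∈ D → ContinuousOn K (D ×ˢ Icc (0 : ℝ) 1) → (∀ x ∈ D, ∀ s ∈ Icc (0 : ℝ) 1, K (x, s) ∈ D) →
  (∀ x ∈ D, K (x, 0) = x) → (∀ x ∈ D, K (x, 1) = xm) →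
  ∀ (f : M → M) (x₀ : M) (ℓ ℓ' : ℝ) (a b : M → ℝ → M), ContinuousOn f D → TrF D f x₀ ℓ a →
  TrF D f x₀ ℓ' b → ∃ (L : ℝ) (H : ℝ → M → ℝ → M),
    (∀ s ∈ Icc (0 : ℝ) 1, TrF D f x₀ L (H s)) ∧
    ContinuousOn (fun p : ℝ × (M × ℝ) => H p.1 p.2.1 p.2.2) (Icc (0 : ℝ) 1 ×ˢ (D ×ˢ univ)) ∧
    (∀ x ∈ D, ∀ u, H 0 x u = a x u) ∧ (∀ x ∈ D, ∀ u, H 1 x u = b x u)

/-! ### [R-E]: naturality of the Wang data -/

/-- Reflection of the last coordinate of `Cu E (n + 1)`. -/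
def rlC {E : Type} {n : ℕ} (z : Cu E (n + 1)) : Cu E (n + 1) := (z.1, 1 - z.2)

/-- A map of a trivialised family over `f : M → M`, the reflection on the cell. `R`, `S`: one map
for all levels; `φ`: the change of level. -/
structure TrivMap {E E' M : Type} [MetricSpace E] [MetricSpace E'] [MetricSpace M] {m : ℕ}
    {ev : E → M} {X : ℝ → Set E} {Om : ℝ → Set E'} {c : ℝ} (T : Triv (m + 1) ev X Om c)
    (f : M → M) (φ : ℝ → ℝ) (R : E → E) (S : E' → E') : Prop where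
  φ_pos : ∀ t, 0 < t → 0 < φ t
  φ_mono : ∀ s t, 0 < s → s ≤ t → φ s ≤ φ t
  R_map : ∀ t, 0 < t → IsMap (tr E) (tr E) (X t) (X (φ t)) R
  S_map : ∀ t, 0 < t → IsMap (tr E') (tr E') (Om t) (Om (φ t)) S
  ev_R : ∀ t, 0 < t → ∀ w ∈ X t, ev (R w) = f (ev w)
  f_p : MapsTo f T.Dp T.Dp
  f_m : MapsTo f T.Dm T.Dm
  tm : ∀ t, 0 < t → ∃ t', φ t + c ≤ t' ∧ φ (t + c) ≤ t' ∧
    Hp (ovr ev X T.Dm t) ∅ (Om t') ∅ (T.tm.f (φ t) ∘ R) (S ∘ T.tm.f t)
  tp : ∀ t, 0 < t → ∃ t', φ t + c ≤ t' ∧ φ (t + c) ≤ t' ∧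
    Hp (ovr ev X T.Dp t) (ovr ev X (T.Dp ∩ T.Dm) t) (cub (m + 1) (Om t')) (bdc (m + 1) (Om t'))
      (T.tp.f (φ t) ∘ R) (rlC ∘ H901.cuM S (m + 1) ∘ T.tp.f t)

/-- The action of a map (with change of level) on a family of classes. -/
def ActOn {E : Type} [PseudoMetricSpace E] {k : Type} [Field k] {A : ℝ → Set E} (hA : Mono A)
    (φ : ℝ → ℝ) (R : E → E) {q : ℕ} (o o' : (PMa k A hA q).Fam) : Prop :=
  ∀ (s t : ℝ) (hs : 0 < s) (ht : 0 < t) (_ : φ s ≤ t) (h : IsMap (tr E) (tr E) (A s) (A t) R),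
    pull (on k) h q (o.z t ht) = o'.z s hs

/-- **[R-E]** -/
def StWangF : Prop := ∀ (E E' M : Type) [MetricSpace E] [MetricSpace E'] [MetricSpace M] (m : ℕ)
  (ev : E → M) (X : ℝ → Set E) (Om : ℝ → Set E') (c : ℝ) (T : Triv (m + 1) ev X Om c)
  (f : M → M) (φ : ℝ → ℝ) (R : E → E) (S : E' → E'), TrivMap T f φ R S →
  ∀ (k : Type) [Field k] (h2 : (2 : k) ≠ 0), ∃ W : WangF (T.wang h2) (-1),
    (∀ q o, ActOn T.Om_mono φ S o ((W.OG q).f o)) ∧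
    (∀ q o, ActOn T.X_mono φ R o ((W.OX q).f o))

/-! ### [R-F]: transport from the Moore loops to the energy sublevels -/

/-- `R` = approximation of `w ↦ f ∘ w` on the Moore loops; the time is multiplied by `lam`, the
durations are controlled at the multiples of `δ`. -/
structure MooreMap {M : Type} [MetricSpace M] (f : M → M) (φ : ℝ → ℝ)
    (R : (ℝ →ᵇ M) → (ℝ →ᵇ M)) (δ lam η : ℝ) : Prop where
  δ_pos : 0 < δ
  lam_pos : 0 < lam
  φ_pos : ∀ t, 0 < t → 0 < φ t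
  φ_le : ∀ t, 0 < t → lam * t ≤ φ t
  map : ∀ t, 0 < t → UMap (FL M t) (FL M (φ t)) R
  dur : ∀ (N : ℕ), 0 < N → ∀ w ∈ FL M (N * δ), R w ∈ FL M (lam * (N * δ))
  close : ∀ t, 0 < t → ∀ w ∈ FL M t, ∀ u, dist (R w (lam * u)) (f (w u)) ≤ η

/-- **[R-F]** (proof: `H971.exists_homotopy'`, `H971.exists_approx`, `MV337/ToX.lean`). -/
def StToXL : Prop := ∀ (M : Type) [MetricSpace M] [CompactSpace M] (ρ : ℝ), 0 < ρ →
  LS.UniqSeg M ρ → ∀ (f : C(M, M)) (φ : ℝ → ℝ) (R : (ℝ →ᵇ M) → (ℝ →ᵇ M)) (δ lam η : ℝ),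
  η ≤ ρ / 8 → MooreMap f φ R δ lam η → ∀ (k : Type) [Field k] (n : ℕ) (B : ℝ) (X : XOut M n B k)
  (q : ℕ) (e : k), (∀ o : (XP k M q).Fam, ActOn mono_FL φ R o (PM.Fam.smul e o)) →
  ∀ (s T : ℝ) (R' : LM M → LM M) (h : UMap (XL M s) (XL M T) R'), 0 ≤ s → 0 ≤ T →
    Approx f (ρ / 8) s R' → hpull k h q (X.g q T) = e • X.g q s

end Vale.Agent.P216.H971
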