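import Vale.Agent.P216.H971.LowGood
import Vale.Agent.P216.H787.CLow
import Vale.Agent.P216.C313.LowMain

/-!
# P216-D, [LOW]: the path spaces in the low degrees

`M` compact, simply connected, with unique short segments; `k` a field such that the cohomology of
`M` is zero in the degrees `0 < j < d` and of rank `≤ 1` in degree `d`. `low_all`: in the degrees
`0 < j < d - 1` the restrictions `P a b t ⊆ P a b (t + B)` are zero, in degree `d - 1` any two
classes become dependent. `B` depends on `M` and `d` only.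
-/

set_option linter.unusedVariables false
set_option linter.unusedSectionVars false

open Set Finsupp Topology BoundedContinuousFunction

namespace Vale.Agent.P216.H971.Low

open Sl PS MV337 H456 H456C
open Vale.Agent.P216.AS (IsMap IsHtpy)
open Vale.Agent.P216.H901 (tr on)

/-- The cohomology of `M` is zero in degree `j`. -/
def BaseZ (k : Type) [Field k] (M : Type) [MetricSpace M] (j : ℕ) : Prop :=
  ∀ f : List M → k, CocL (univ : Set M) j f → ExL (univ : Set M) j f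

/-- The cohomology of `M` has rank `≤ 1` in degree `j`. -/
def BaseL (k : Type) [Field k] (M : Type) [MetricSpace M] (j : ℕ) : Prop :=
  ∀ f f' : List M → k, CocL (univ : Set M) j f → CocL (univ : Set M) j f' →
    ∃ c c' : k, (c ≠ 0 ∨ c' ≠ 0) ∧ ExL (univ : Set M) j fun l => c * f l + c' * f' l

/-- Any two classes of degree `j` become dependent. -/
def LowR (k : Type) [Field k] (M : Type) [MetricSpace M] (L : ℝ) (j : ℕ) : Prop :=
  ∀ (a b : M) (t : ℝ), 0 ≤ t → ∀ f f' : List (ℝ →ᵇ M) → k, CocL (P a b (t + L)) j f →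
    CocL (P a b (t + L)) j f' → ∃ c c' : k, (c ≠ 0 ∨ c' ≠ 0) ∧
      ExC (P a b t) j fun l => c * f l + c' * f' l

section net

variable {M : Type} [MetricSpace M] [CompactSpace M]

/-- A finite net through a given point. -/
theorem exists_net (x₁ : M) {δ : ℝ} (hδ : 0 < δ) : ∃ (F : Finset M) (φ : M → M),
    (∀ x, φ x ∈ F) ∧ (∀ x, dist x (φ x) ≤ δ) ∧ φ x₁ = x₁ := by
  classical
  obtain ⟨S, -, hS, hc⟩ := (isCompact_univ (X := M)).finite_cover_balls hδ
  have h1 : ∀ x, ∃ y ∈ S, dist x y ≤ δ := fun x => by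
    obtain ⟨y, hy, hxy⟩ := mem_iUnion₂.1 (hc (mem_univ x))
    exact ⟨y, hy, (Metric.mem_ball.1 hxy).le⟩
  choose ψ hψ hψ' using h1
  refine ⟨insert x₁ hS.toFinset, fun x => if x = x₁ then x₁ else ψ x, fun x => ?_, fun x => ?_,
    if_pos rfl⟩
  · by_cases h : x = x₁
    · show (if x = x₁ then x₁ else ψ x) ∈ _
      rw [if_pos h]
      exact Finset.mem_insert_self _ _
    · show (if x = x₁ then x₁ else ψ x) ∈ _
      rw [if_neg h]
      exact Finset.mem_insert_of_mem (hS.mem_toFinset.2 (hψ x))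
  · by_cases h : x = x₁
    · show dist x (if x = x₁ then x₁ else ψ x) ≤ _
      rw [if_pos h, h, dist_self]
      exact hδ.le
    · show dist x (if x = x₁ then x₁ else ψ x) ≤ _
      rw [if_neg h]
      exact hψ' x

end net

section main

variable {k : Type} [Field k] {M : Type} [MetricSpace M] [CompactSpace M] {ρ R D L r₀ t : ℝ}
  {q : ℕ} {b x₁ : M} {F : Finset M}

theorem CocL.sub' {E : Type} [PseudoMetricSpace E] {A : Set E} {m : ℕ} {f g : List E → k}
    (hf : CocL A m f) (hg : CocL A m g) : CocL A m fun l => f l - g l := by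
  obtain ⟨ε, hε, hf⟩ := hf
  obtain ⟨ε', hε', hg⟩ := hg
  refine ⟨min ε ε', lt_min hε hε', fun l hl hs => ?_⟩
  rw [dl_sub, hf l hl (hs.mono le_rfl (min_le_left _ _)),
    hg l hl (hs.mono le_rfl (min_le_right _ _)), sub_zero]

/-- The loss of one step. -/
noncomputable def Lst (R D L : ℝ) (q : ℕ) : ℝ := (q : ℕ) * (2 * R + L + D) + (3 * D + 3 * R) + L

/-- **Every class extends to a double cocycle.** -/
theorem exists_good_of (hp : IsPi M D) (hU : LS.UniqSeg M ρ) (hR : 0 < R) (hRρ : R < ρ)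
    (hL : 0 ≤ L) (hlow : ∀ j, 0 < j → j < q → LowE k M L j) (ht : 0 ≤ t) (hr₀ : 0 < r₀)
    (hrR : r₀ * 2 ^ (q + 1) ≤ R) {z : List (ℝ →ᵇ M) → k}
    (hz : CocL (P x₁ b (t + Lst R D L q)) q z) :
    ∃ ζ : List M → List (ℝ →ᵇ M) → k, Good b F (q + 2) (q + 2) r₀ (t + D) ζ ∧
      ExC (P x₁ b (t + D)) q fun l => ζ [x₁] l - z l := by
  have hD := hp.nonneg
  have hc0 : 0 ≤ 2 * R + L + D := by linarith
  have hq0 : 0 ≤ (q : ℝ) * (2 * R + L + D) := by positivity
  choose c hc using fun v => hp.ne x₁ v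
  have hLst : Lst R D L q = (q : ℕ) * (2 * R + L + D) + (3 * D + 3 * R) + L := rfl
  have hz1 : ∀ v ∈ F, CocL (XS b [v] (r₀ * 2 ^ (q + 1)) (t + D + (q + 1 : ℕ) * (2 * R + L + D))) q
      fun l => z (l.map (Tp R D (c v) v)) := by
    intro v _
    have h1 := (hz.mono (P_mono (t := D + (t + D + (q + 1 : ℕ) * (2 * R + L + D) + R)) (by
      rw [hLst]
      push_cast
      linarith))).map (isMap_Tp hU hR hRρ hD (by positivity) (hc v))
    exact h1.mono (XS_sub_ball (List.mem_singleton_self v) hrR)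
  have hzz : ∀ v ∈ F, ∀ v' ∈ F, ExC (XS b [v, v'] (r₀ * 2 ^ q)
      (t + D + (q : ℕ) * (2 * R + L + D))) q
      fun l => z (l.map (Tp R D (c v') v')) - z (l.map (Tp R D (c v) v)) := by
    intro v hv v' hv'
    rcases (XS b [v, v'] (r₀ * 2 ^ q) (t + D + (q : ℕ) * (2 * R + L + D))).eq_empty_or_nonempty
      with h | ⟨w, hw⟩
    · rw [h]
      exact exC_empty
    have e2 : 2 * (r₀ * 2 ^ q) = r₀ * 2 ^ (q + 1) := by ring
    have hr0 : 0 ≤ r₀ * 2 ^ q := by positivity
    have hvv : dist v v' ≤ R := by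
      have h1 := hw.2 v (by simp)
      have h2 := hw.2 v' (by simp)
      have h3 := dist_triangle_left v v' (w 0)
      linarith
    have hC : CocL (XS b [v, v'] (2 * (r₀ * 2 ^ q)) (t + D + (q : ℕ) * (2 * R + L + D) + 2 * R)) q
        fun l => z (l.map (Tp R D (c v') v')) - z (l.map (Tp R D (c v) v)) := by
      refine CocL.sub' ((hz1 v' hv').mono ?_) ((hz1 v hv).mono ?_)
      · refine XS_mono (fun x hx => ?_) e2.le ?_
        · rw [List.mem_singleton.1 hx]
          simp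
        · push_cast
          linarith
      · refine XS_mono (fun x hx => ?_) e2.le ?_
        · rw [List.mem_singleton.1 hx]
          simp
        · push_cast
          linarith
    refine exC_XS hU hR hRρ (v := v) (by simp) hr0 (by linarith) (by positivity) hC ?_
    refine exC_transport hp hU hR hRρ (by positivity) hvv (hc v) (hc v') (hz.mono (P_mono ?_))
    rw [hLst]
    linarith
  obtain ⟨ζ, hζ, h1⟩ := exists_good hp hU hR hRρ hL hlow (t := t + D) (by linarith) hr₀ hrR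
    (z₁ := fun v l => z (l.map (Tp R D (c v) v))) hz1 hzz
  refine ⟨ζ, hζ, ?_⟩
  rw [h1]
  refine exC_base hp hU hR hRρ (by linarith) (hc x₁) (hz.mono (P_mono ?_))
  rw [hLst]
  linarith

/-- **The zero step.** -/
theorem lowE_step (hp : IsPi M D) (hU : LS.UniqSeg M ρ) (hR : 0 < R) (hRρ : R < ρ)
    (hL : 0 ≤ L) (hq : 1 ≤ q) (hlow : ∀ j, 0 < j → j < q → LowE k M L j)
    (hb : BaseZ k M (q + 1)) : LowE k M (Lst R D L q) q := by
  intro a b t ht z hz
  have hD := hp.nonneg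
  set r₀ := R / 2 ^ (q + 1) with hr₀
  have hr : 0 < r₀ := by positivity
  have hrR : r₀ * 2 ^ (q + 1) ≤ R := by
    rw [hr₀, div_mul_cancel₀ _ (by positivity)]
  obtain ⟨F, φ, hφF, hφ, hφ₁⟩ := exists_net a (half_pos hr)
  obtain ⟨ζ, hζ, h1⟩ := exists_good_of (F := F) hp hU hR hRρ hL hlow ht hr hrR hz
  obtain ⟨w, hw⟩ := hp.ne a b
  have h2 := hζ.exC hq (by linarith) hr hφF hφ hφ₁ ⟨w, P_mono (by linarith) hw⟩
    (hb _ (hζ.cocL_ct hp (by linarith) hr hφF hφ))
  refine ((h2.add (h1.mul (-1))).congr fun l _ => ?_).mono (P_mono (by linarith))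
  ring

/-- **The rank one step.** -/
theorem lowR_step (hp : IsPi M D) (hU : LS.UniqSeg M ρ) (hR : 0 < R) (hRρ : R < ρ)
    (hL : 0 ≤ L) (hq : 1 ≤ q) (hlow : ∀ j, 0 < j → j < q → LowE k M L j)
    (hb : BaseL k M (q + 1)) : LowR k M (Lst R D L q) q := by
  intro a b t ht z z' hz hz'
  have hD := hp.nonneg
  set r₀ := R / 2 ^ (q + 1) with hr₀
  have hr : 0 < r₀ := by positivity
  have hrR : r₀ * 2 ^ (q + 1) ≤ R := by
    rw [hr₀, div_mul_cancel₀ _ (by positivity)]
  obtain ⟨F, φ, hφF, hφ, hφ₁⟩ := exists_net a (half_pos hr)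
  obtain ⟨ζ, hζ, h1⟩ := exists_good_of (F := F) hp hU hR hRρ hL hlow ht hr hrR hz
  obtain ⟨ζ', hζ', h1'⟩ := exists_good_of (F := F) hp hU hR hRρ hL hlow ht hr hrR hz'
  obtain ⟨w, hw⟩ := hp.ne a b
  obtain ⟨c, c', hc, hex⟩ := hb _ _ (hζ.cocL_ct hp (by linarith) hr hφF hφ)
    (hζ'.cocL_ct hp (by linarith) hr hφF hφ)
  refine ⟨c, c', hc, ?_⟩
  have h2 := (hζ.lin hζ' c c').exC hq (by linarith) hr hφF hφ hφ₁ ⟨w, P_mono (by linarith) hw⟩ hex
  refine ((h2.add ((h1.mul (-c)).add (h1'.mul (-c')))).congr fun l _ => ?_).mono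
    (P_mono (by linarith))
  ring

/-- The constants. -/
noncomputable def Lc (R D : ℝ) : ℕ → ℝ
  | 0 => 0
  | q + 1 => Lst R D (Lc R D q) (q + 1)

theorem Lc_nonneg (hR : 0 ≤ R) (hD : 0 ≤ D) : ∀ q, 0 ≤ Lc R D q := by
  intro q
  induction q with
  | zero => exact le_rfl
  | succ q ih =>
    show 0 ≤ ((q + 1 : ℕ) : ℝ) * (2 * R + Lc R D q + D) + (3 * D + 3 * R) + Lc R D q
    positivity

theorem Lc_mono (hR : 0 ≤ R) (hD : 0 ≤ D) : Monotone (Lc R D) := by
  refine monotone_nat_of_le_succ fun q => ?_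
  have h := Lc_nonneg hR hD q
  show Lc R D q ≤ ((q + 1 : ℕ) : ℝ) * (2 * R + Lc R D q + D) + (3 * D + 3 * R) + Lc R D q
  have h1 : 0 ≤ ((q + 1 : ℕ) : ℝ) * (2 * R + Lc R D q + D) + (3 * D + 3 * R) := by positivity
  linarith

/-- **Degrees below `d - 1`.** -/
theorem low_lt (hp : IsPi M D) (hU : LS.UniqSeg M ρ) (hR : 0 < R) (hRρ : R < ρ) {d : ℕ}
    (hb : ∀ j, 0 < j → j < d → BaseZ k M j) :
    ∀ q, q + 1 < d → ∀ j, 0 < j → j ≤ q → LowE k M (Lc R D q) j := by
  have hD := hp.nonneg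
  intro q
  induction q with
  | zero => intro _ j hj hj'; omega
  | succ q ih =>
    intro hq j hj hjq
    rcases hjq.lt_or_eq with h | rfl
    · exact (ih (by omega) j hj (by omega)).mono (Lc_mono hR.le hD q.le_succ)
    · exact lowE_step hp hU hR hRρ (Lc_nonneg hR.le hD q) (by omega)
        (fun j hj h => ih (by omega) j hj (by omega)) (hb _ (by omega) hq)

/-- **Degree `d - 1`.** -/
theorem low_eq (hp : IsPi M D) (hU : LS.UniqSeg M ρ) (hR : 0 < R) (hRρ : R < ρ) {q : ℕ}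
    (hb : ∀ j, 0 < j → j < q + 2 → BaseZ k M j) (hb' : BaseL k M (q + 2)) :
    LowR k M (Lc R D (q + 1)) (q + 1) :=
  lowR_step hp hU hR hRρ (Lc_nonneg hR.le hp.nonneg q) (by omega)
    (fun j hj h => low_lt hp hU hR hRρ hb q (by omega) j hj (by omega)) hb'

/-- **[LOW], list form.** The constant depends on `M` and `d` only. -/
theorem low_all (M : Type) [MetricSpace M] [CompactSpace M] [SimplyConnectedSpace M] {ρ : ℝ}
    (hρ : 0 < ρ) (hU : LS.UniqSeg M ρ) (d : ℕ) : ∃ B, 0 ≤ B ∧ ∀ (k : Type) [Field k],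
      (∀ j, 0 < j → j < d → BaseZ k M j) → BaseL k M d →
      (∀ j, 0 < j → j < d → LowR k M B j) ∧ ∀ j, 0 < j → j + 1 < d → LowE k M B j := by
  obtain ⟨D, hD⟩ := C313.exists_isPi hρ hU
  have hR : 0 < ρ / 2 := half_pos hρ
  refine ⟨Lc (ρ / 2) D d, Lc_nonneg hR.le hD.nonneg d, fun k _ hb hb' => ?_⟩
  have hE : ∀ j, 0 < j → j + 1 < d → LowE k M (Lc (ρ / 2) D d) j := fun j hj hjd =>
    (low_lt hD hU hR (half_lt_self hρ) hb j (by omega) j hj le_rfl).mono
      (Lc_mono hR.le hD.nonneg (by omega))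
  refine ⟨fun j hj hjd => ?_, hE⟩
  rcases Nat.lt_or_ge (j + 1) d with h | h
  · intro a b t ht f f' hf hf'
    refine ⟨1, 0, Or.inl one_ne_zero, (hE j hj h a b t ht f hf).congr fun l _ => ?_⟩
    ring
  · obtain ⟨q, rfl⟩ : ∃ q, d = q + 2 := ⟨d - 2, by omega⟩
    obtain rfl : j = q + 1 := by omega
    intro a b t ht f f' hf hf'
    have h1 := low_eq hD hU hR (half_lt_self hρ) hb hb'
    have h2 : P a b (t + Lc (ρ / 2) D (q + 1)) ⊆ P a b (t + Lc (ρ / 2) D (q + 2)) :=
      P_mono (by linarith [Lc_mono hR.le hD.nonneg (show q + 1 ≤ q + 2 by omega)])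
    exact h1 a b t ht f f' (hf.mono h2) (hf'.mono h2)

end main

end Vale.Agent.P216.H971.Low
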