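import Vale.Agent.P216.H787.Cls

/-!
# P216-D, [LOW]: double list cochains

`c : List α → List β → k`: a Čech cochain in the first variable, an Alexander-Spanier cochain in the
second one. `Dd c` = total coboundary. `kap φ c l = ∑ₚ c (φ l₀, …, φ lₚ) (lₚ, …)`: the assembly of
an Alexander-Spanier cochain; `dl_kap`: its coboundary.
-/

set_option linter.unusedVariables false

open Set Finsupp

namespace Vale.Agent.P216.H971.Low

open Sl

variable {k : Type} [Field k] {α β : Type}

theorem dl_sub (f g : List α → k) (l : List α) :
    dl (fun l' => f l' - g l') l = dl f l - dl g l := by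
  have e : (fun l' => f l' - g l') = fun l' => f l' + (-1) * g l' := by funext l'; ring
  rw [e, dl_add, dl_mul_left]
  ring

theorem dl_zero (l : List α) : dl (fun _ => (0 : k)) l = 0 := by
  have := dl_mul_left (0 : k) (fun _ : List α => (0 : k)) l
  simpa using this

/-- The two coboundaries commute. -/
theorem dl_comm (f : List α → List β → k) (σ : List α) : ∀ l : List β,
    dl (fun l' => dl (fun τ => f τ l') σ) l = dl (fun τ => dl (f τ) l) σ := by
  intro l
  induction l generalizing f with
  | nil =>
    rw [dl_nil]
    have : (fun τ => dl (f τ) ([] : List β)) = fun _ => (0 : k) := by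
      funext τ
      exact dl_nil _
    rw [this, dl_zero]
  | cons x l ih =>
    rw [dl_cons]
    have e : (fun τ => dl (f τ) (x :: l)) = fun τ => f τ l - dl (fun l' => f τ (x :: l')) l := by
      funext τ
      exact dl_cons _ _ _
    rw [e, dl_sub, ← ih (fun τ l' => f τ (x :: l'))]

/-- The total coboundary. -/
noncomputable def Dd (c : List α → List β → k) (σ : List α) (l : List β) : k :=
  dl (fun τ => c τ l) σ - (-1 : k) ^ σ.length * dl (c σ) l

/-- **The assembly.** -/
def kap (φ : β → α) : (List α → List β → k) → List β → k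
  | _, [] => 0
  | c, x :: l => c [φ x] (x :: l) + kap φ (fun σ l' => c (φ x :: σ) l') l

theorem kap_cons (φ : β → α) (c : List α → List β → k) (x : β) (l : List β) :
    kap φ c (x :: l) = c [φ x] (x :: l) + kap φ (fun σ l' => c (φ x :: σ) l') l := rfl

theorem kap_nil (φ : β → α) (c : List α → List β → k) : kap φ c [] = 0 := rfl

theorem kap_sub (φ : β → α) (l : List β) : ∀ c c' : List α → List β → k,
    kap φ (fun σ l' => c σ l' - c' σ l') l = kap φ c l - kap φ c' l := by
  induction l with
  | nil => intro c c'; rw [kap_nil, kap_nil, kap_nil, sub_zero]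
  | cons x l ih =>
    intro c c'
    rw [kap_cons, kap_cons, kap_cons, ih (fun σ l' => c (φ x :: σ) l') fun σ l' => c' (φ x :: σ) l']
    ring

/-- **The coboundary of the assembly.** -/
theorem dl_kap (φ : β → α) (l : List β) : ∀ c : List α → List β → k,
    dl (kap φ c) l = kap φ (Dd c) l - c [] l + (-1 : k) ^ l.length * c (l.map φ) [] := by
  induction l with
  | nil => intro c; rw [dl_nil, kap_nil]; simp
  | cons x l ih =>
    intro c
    have e1 : (fun l' => kap φ c (x :: l')) = fun l' => c [φ x] (x :: l') +
        kap φ (fun σ l' => c (φ x :: σ) l') l' := by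
      funext l'
      rfl
    have e2 : Dd (fun σ l' => c (φ x :: σ) l') = fun σ l' => c σ l' - Dd c (φ x :: σ) l' := by
      funext σ l'
      unfold Dd
      rw [dl_cons (fun τ => c τ l'), List.length_cons, pow_succ]
      ring
    have e3 : Dd c [φ x] (x :: l) = c [] (x :: l) + (c [φ x] l - dl (fun l' => c [φ x] (x :: l')) l)
        := by
      unfold Dd
      rw [dl_one, dl_cons, List.length_singleton]
      ring
    rw [dl_cons, e1, dl_add, ih, e2, kap_sub, kap_cons, e3, List.map_cons, List.length_cons,
      pow_succ]
    ring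

/-- The assembly only sees the values on `(φ l₀, …, φ lₚ) (lₚ, …)`. -/
theorem kap_congr (φ : β → α) (l : List β) : ∀ c c' : List α → List β → k,
    (∀ l₁ w l₂, l = l₁ ++ w :: l₂ → c ((l₁ ++ [w]).map φ) (w :: l₂) =
      c' ((l₁ ++ [w]).map φ) (w :: l₂)) → kap φ c l = kap φ c' l := by
  induction l with
  | nil => intro c c' _; rfl
  | cons x l ih =>
    intro c c' h
    rw [kap_cons, kap_cons]
    have h1 := h [] x l rfl
    simp only [List.nil_append, List.map_cons, List.map_nil] at h1
    rw [h1]
    congr 1
    refine ih _ _ fun l₁ w l₂ hl => ?_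
    have h2 := h (x :: l₁) w l₂ (by rw [hl]; rfl)
    simpa using h2

theorem kap_zero (φ : β → α) (l : List β) : kap φ (fun _ _ => (0 : k)) l = 0 := by
  induction l with
  | nil => rfl
  | cons x l ih =>
    rw [kap_cons, zero_add]
    exact ih

theorem kap_eq_zero (φ : β → α) {l : List β} {c : List α → List β → k}
    (h : ∀ l₁ w l₂, l = l₁ ++ w :: l₂ → c ((l₁ ++ [w]).map φ) (w :: l₂) = 0) : kap φ c l = 0 := by
  rw [kap_congr φ l c (fun _ _ => 0) h, kap_zero]

/-- The assembly on lists with constant `φ`. -/
theorem kap_const (φ : β → α) {v : α} {l : List β} {c : List α → List β → k} (hl : l ≠ [])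
    (hφ : ∀ w ∈ l, φ w = v) (h0 : ∀ n l', 2 ≤ n → c (List.replicate n v) l' = 0) :
    kap φ c l = c [v] l := by
  rcases l with _ | ⟨x, l⟩
  · exact absurd rfl hl
  · rw [kap_cons, hφ x List.mem_cons_self, add_eq_left]
    refine kap_eq_zero φ fun l₁ w l₂ e => ?_
    have e1 : (l₁ ++ [w]).map φ = List.replicate (l₁.length + 1) v := by
      rw [List.eq_replicate_iff]
      refine ⟨by simp, fun y hy => ?_⟩
      obtain ⟨z, hz, rfl⟩ := List.mem_map.1 hy
      refine hφ z (List.mem_cons_of_mem _ ?_)
      rw [e]
      rcases List.mem_append.1 hz with h | h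
      · exact List.mem_append_left _ h
      · rw [List.mem_singleton.1 h]
        exact List.mem_append_right _ List.mem_cons_self
    have e2 := h0 (l₁.length + 2) (w :: l₂) (by omega)
    rw [List.replicate_succ] at e2
    show c (v :: (l₁ ++ [w]).map φ) (w :: l₂) = 0
    rw [e1]
    exact e2

/-- Constant functions. -/
theorem dl_const (c : k) : ∀ l : List α, dl (fun _ => c) l = if Odd l.length then c else 0 := by
  intro l
  induction l with
  | nil => rw [dl_nil]; simp
  | cons x l ih =>
    rw [dl_cons, ih, List.length_cons]
    by_cases h : Odd l.length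
    · rw [if_pos h, if_neg (by simpa [Nat.odd_add_one] using h), sub_self]
    · rw [if_neg h, if_pos (by simpa [Nat.odd_add_one] using h), sub_zero]

/-- The coboundary on a constant list. -/
theorem dl_replicate {f : List α → k} {v : α} {n : ℕ} (h : 2 ≤ n → f (List.replicate n v) = 0) :
    dl f (List.replicate (n + 1) v) = 0 ∨ n = 0 := by
  rcases n with _ | n
  · exact Or.inr rfl
  left
  rcases n with _ | n
  · simp only [List.replicate]
    rw [dl_cons, dl_one]
    simp
  · have h1 := h (by omega)
    rw [← dl_zero (k := k) (List.replicate (n + 1 + 1 + 1) v)]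
    refine dl_congr fun l' hl' hm => ?_
    rw [List.length_replicate] at hl'
    have e : l' = List.replicate (n + 1 + 1) v := by
      rw [List.eq_replicate_iff]
      refine ⟨by omega, fun x hx => ?_⟩
      have := hm x hx
      rw [List.mem_replicate] at this
      exact this.2
    rw [e, h1]

end Vale.Agent.P216.H971.Low
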