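import Vale.Agent.P216.H971.LowTr

/-!
# P216-D, [LOW]: the zigzag

`Good … ζ`: the double cochain `ζ` has total coboundary `0` on the small lists. `exists_good`:
construction of `ζ` from its first column.
-/

set_option linter.unusedVariables false

open Set Finsupp Topology BoundedContinuousFunction

namespace Vale.Agent.P216.H971.Low

open Sl PS MV337 H456 H456C
open Vale.Agent.P216.AS (IsMap IsHtpy)
open Vale.Agent.P216.H901 (tr on)

variable {k : Type} [Field k] {M : Type} [MetricSpace M]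

/-- The lists of length `n` in a finite set are finitely many. -/
theorem finite_lists (F : Finset M) (n : ℕ) :
    {σ : List M | σ.length = n ∧ ∀ v ∈ σ, v ∈ F}.Finite := by
  classical
  have h := (List.finite_length_eq (↥F) n).image (List.map Subtype.val)
  refine h.subset fun σ hσ => ?_
  refine ⟨σ.attach.map fun v => ⟨v.1, hσ.2 v.1 v.2⟩, ?_, ?_⟩
  · show (List.map _ _).length = n
    rw [List.length_map, List.length_attach, hσ.1]
  · rw [List.map_map]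
    exact List.attach_map_subtype_val σ

/-- A uniform scale for finitely many lists. -/
theorem exists_eps (F : Finset M) (n : ℕ) {Q : List M → ℝ → Prop}
    (hmono : ∀ σ ε ε', Q σ ε → 0 < ε' → ε' ≤ ε → Q σ ε')
    (h : ∀ σ : List M, σ.length = n → (∀ v ∈ σ, v ∈ F) → ∃ ε > 0, Q σ ε) :
    ∃ ε > 0, ∀ σ : List M, σ.length = n → (∀ v ∈ σ, v ∈ F) → Q σ ε := by
  have key : ∀ S : Set (List M), S.Finite → (∀ σ ∈ S, ∃ ε > 0, Q σ ε) →
      ∃ ε > 0, ∀ σ ∈ S, Q σ ε := by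
    intro S hS
    induction S, hS using Set.Finite.induction_on with
    | empty => exact fun _ => ⟨1, one_pos, fun σ hσ => absurd hσ (notMem_empty σ)⟩
    | @insert a s ha hs ih =>
      intro h
      obtain ⟨ε, hε, h1⟩ := ih fun σ hσ => h σ (mem_insert_of_mem _ hσ)
      obtain ⟨ε', hε', h2⟩ := h a (mem_insert _ _)
      refine ⟨min ε ε', lt_min hε hε', fun σ hσ => ?_⟩
      rcases hσ with rfl | hσ
      · exact hmono _ _ _ h2 (lt_min hε hε') (min_le_right _ _)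
      · exact hmono _ _ _ (h1 σ hσ) (lt_min hε hε') (min_le_left _ _)
  obtain ⟨ε, hε, h1⟩ := key _ (finite_lists F n) fun σ hσ => h σ hσ.1 hσ.2
  exact ⟨ε, hε, fun σ h2 h3 => h1 σ ⟨h2, h3⟩⟩

/-- The double cochain `ζ` of total length `N` is closed over the tuples of length `≤ a`. -/
structure Good (b : M) (F : Finset M) (N a : ℕ) (r t : ℝ) (ζ : List M → List (ℝ →ᵇ M) → k) :
    Prop where
  nil : ∀ l, ζ [] l = 0
  rep : ∀ (v : M) (n : ℕ), 2 ≤ n → ∀ l, ζ (List.replicate n v) l = 0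
  cl : ∃ ε > 0, ∀ σ l, σ ≠ [] → σ.length ≤ a → (∀ v ∈ σ, v ∈ F) → σ.length + l.length = N + 1 →
    SmL (XS b σ r t) ε l → Dd ζ σ l = 0

variable {b : M} {F : Finset M} {N a : ℕ} {r r' t t' : ℝ} {ζ ζ' : List M → List (ℝ →ᵇ M) → k}

theorem Good.mono (h : Good b F N a r t ζ) (hr : r' ≤ r) (ht : t' ≤ t) : Good b F N a r' t' ζ := by
  obtain ⟨h1, h2, ε, hε, h3⟩ := h
  exact ⟨h1, h2, ε, hε, fun σ l h4 h5 h6 h7 h8 => h3 σ l h4 h5 h6 h7
    (h8.mono (XS_mono (fun _ h => h) hr ht) le_rfl)⟩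

theorem Dd_add (c c' : List M → List (ℝ →ᵇ M) → k) (σ : List M) (l : List (ℝ →ᵇ M)) :
    Dd (fun σ l => c σ l + c' σ l) σ l = Dd c σ l + Dd c' σ l := by
  unfold Dd
  rw [Sl.dl_add, Sl.dl_add]
  ring

theorem Dd_mul (x : k) (c : List M → List (ℝ →ᵇ M) → k) (σ : List M) (l : List (ℝ →ᵇ M)) :
    Dd (fun σ l => x * c σ l) σ l = x * Dd c σ l := by
  unfold Dd
  rw [dl_mul_left, dl_mul_left]
  ring

theorem Good.lin (h : Good b F N a r t ζ) (h' : Good b F N a r t ζ') (x x' : k) :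
    Good b F N a r t fun σ l => x * ζ σ l + x' * ζ' σ l := by
  obtain ⟨h1, h2, ε, hε, h3⟩ := h
  obtain ⟨h1', h2', ε', hε', h3'⟩ := h'
  refine ⟨fun l => by rw [h1, h1']; ring, fun v n hn l => by rw [h2 v n hn, h2' v n hn]; ring,
    min ε ε', lt_min hε hε', fun σ l h4 h5 h6 h7 h8 => ?_⟩
  rw [Dd_add, Dd_mul, Dd_mul, h3 σ l h4 h5 h6 h7 (h8.mono le_rfl (min_le_left _ _)),
    h3' σ l h4 h5 h6 h7 (h8.mono le_rfl (min_le_right _ _))]
  ring

/-- The obstruction cocycle. -/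
noncomputable def ob (ζ : List M → List (ℝ →ᵇ M) → k) (σ : List M) (l : List (ℝ →ᵇ M)) : k :=
  (-1 : k) ^ σ.length * dl (fun τ => ζ τ l) σ

theorem mem_of_sub {σ τ : List M} (h : ∀ x ∈ τ, x ∈ σ) (hσ : ∀ v ∈ σ, v ∈ F) :
    ∀ v ∈ τ, v ∈ F := fun v hv => hσ v (h v hv)

theorem neg_one_sq_pow (n : ℕ) : (-1 : k) ^ n * (-1) ^ n = 1 := by
  rw [← mul_pow]
  simp

theorem Good.cocL (h : Good b F N a r t ζ) {σ : List M} (ha : 1 ≤ a) {m : ℕ}
    (hN : a + m + 1 = N) (hσ : σ.length = a + 1) (hF : ∀ v ∈ σ, v ∈ F) :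
    CocL (XS b σ r t) m (ob ζ σ) := by
  obtain ⟨h1, h2, ε, hε, h3⟩ := h
  refine ⟨ε, hε, fun l hl hs => ?_⟩
  unfold ob
  rw [dl_mul_left, dl_comm]
  have e : dl (fun τ => dl (ζ τ) l) σ = dl (fun τ => (-1 : k) ^ a * dl (fun τ' => ζ τ' l) τ) σ := by
    refine dl_congr fun τ hτ hm => ?_
    have hτa : τ.length = a := by omega
    have h4 := h3 τ l (by rintro rfl; simp at hτa; omega) hτa.le (mem_of_sub hm hF) (by omega)
      (hs.mono (XS_mono hm le_rfl le_rfl) le_rfl)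
    unfold Dd at h4
    rw [hτa] at h4
    have h5 := neg_one_sq_pow (k := k) a
    linear_combination (-(-1 : k) ^ a) * h4 - dl (ζ τ) l * h5
  rw [e, dl_mul_left, dl_dl]
  ring

theorem ob_replicate (h : Good b F N a r t ζ) (ha : 1 ≤ a) (v : M) (l : List (ℝ →ᵇ M)) :
    ob ζ (List.replicate (a + 1) v) l = 0 := by
  unfold ob
  rcases dl_replicate (f := fun τ => ζ τ l) (v := v) (n := a) fun hn => h.rep v a hn l with h1 | h1
  · rw [h1, mul_zero]
  · omega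

/-- **One step.** -/
theorem Good.step (h : Good b F N a r t ζ) (ha : 1 ≤ a) {m : ℕ} (hN : a + m + 1 = N) (hr : r' ≤ r)
    (ht : t' ≤ t)
    (hex : ∀ σ : List M, σ.length = a + 1 → (∀ v ∈ σ, v ∈ F) → ExC (XS b σ r' t') m (ob ζ σ)) :
    ∃ ζ' : List M → List (ℝ →ᵇ M) → k, Good b F N (a + 1) r' t' ζ' ∧
      ∀ σ, σ.length ≤ a → ζ' σ = ζ σ := by
  classical
  have h' := h.mono hr ht
  have hch : ∀ σ : List M, ∃ g : List (ℝ →ᵇ M) → k, ((∃ v, σ = List.replicate (a + 1) v) →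
      ∀ l, g l = 0) ∧ (σ.length = a + 1 → (∀ v ∈ σ, v ∈ F) → ∃ ε > 0, ∀ l, l.length = m + 1 →
      SmL (XS b σ r' t') ε l → ob ζ σ l = dl g l) := by
    intro σ
    by_cases hv : ∃ v, σ = List.replicate (a + 1) v
    · obtain ⟨v, rfl⟩ := hv
      refine ⟨fun _ => 0, fun _ _ => rfl, fun _ _ => ⟨1, one_pos, fun l _ _ => ?_⟩⟩
      rw [ob_replicate h ha, dl_zero]
    · by_cases h1 : σ.length = a + 1 ∧ ∀ v ∈ σ, v ∈ F
      · obtain ⟨g, hg⟩ := hex σ h1.1 h1.2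
        exact ⟨g, fun h2 => absurd h2 hv, fun _ _ => hg⟩
      · exact ⟨fun _ => 0, fun _ _ => rfl, fun h2 h3 => absurd ⟨h2, h3⟩ h1⟩
  choose g hg1 hg2 using hch
  let ζ' : List M → List (ℝ →ᵇ M) → k := fun σ => if σ.length = a + 1 then g σ else ζ σ
  have hne : ∀ σ : List M, σ.length ≠ a + 1 → ζ' σ = ζ σ := fun σ hσ => if_neg hσ
  have heq : ∀ σ : List M, σ.length = a + 1 → ζ' σ = g σ := fun σ hσ => if_pos hσ
  obtain ⟨h1, h2, ε, hε, h3⟩ := h'
  obtain ⟨ε', hε', h4⟩ := exists_eps F (a + 1) (Q := fun σ ε => ∀ l : List (ℝ →ᵇ M),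
      l.length = m + 1 → SmL (XS b σ r' t') ε l → ob ζ σ l = dl (g σ) l)
    (fun σ ε ε' hq _ hle l hl hs => hq l hl (hs.mono le_rfl hle)) fun σ hσ hF => hg2 σ hσ hF
  refine ⟨ζ', ⟨fun l => ?_, fun v n hn l => ?_, min ε ε', lt_min hε hε',
    fun σ l hσ0 hσ hF hl hs => ?_⟩, fun σ hσ => hne σ (by omega)⟩
  · rw [hne [] (by simp)]
    exact h1 l
  · by_cases hna : n = a + 1
    · rw [heq _ (by rw [List.length_replicate, hna]), hna]
      exact hg1 _ ⟨v, rfl⟩ l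
    · rw [hne _ (by rwa [List.length_replicate])]
      exact h2 v n hn l
  · have e1 : dl (fun τ => ζ' τ l) σ = dl (fun τ => ζ τ l) σ :=
      dl_congr fun τ hτ _ => by
        show ζ' τ l = ζ τ l
        rw [hne τ (by omega)]
    rcases hσ.lt_or_eq with h5 | h5
    · have h6 := h3 σ l hσ0 (by omega) hF hl (hs.mono le_rfl (min_le_left _ _))
      unfold Dd at h6 ⊢
      rw [e1, hne σ (by omega)]
      exact h6
    · have h6 := h4 σ h5 hF l (by omega) (hs.mono le_rfl (min_le_right _ _))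
      unfold Dd
      rw [e1, heq σ h5, ← h6]
      unfold ob
      have h7 := neg_one_sq_pow (k := k) σ.length
      linear_combination (-(dl (fun τ => ζ τ l) σ)) * h7

end Vale.Agent.P216.H971.Low
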