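import Vale.Agent.P216.H311.PathSp
import Vale.Agent.P216.MV337.Conj
import Vale.Agent.P216.H456.PTriv

/-!
# P216-B, B45 [RHO], topology: the polygonal map on Moore paths

`pm f δ η w`: the segments between the points `f (w (i δ))`, `i` an integer, in time `η` each.
-/

set_option linter.unusedVariables false

open Set BoundedContinuousFunction

namespace Vale.Agent.P216.H971

open Vale.Agent.P216.PS Vale.Agent.P216.MV337 Vale.Agent.P216.H456

section pm

variable {M : Type*} [MetricSpace M] {f : M → M} {ρ δ η : ℝ} {w q : ℝ → M} {u v : ℝ} {a b : M}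

/-- The polygonal approximation of `f ∘ w`. -/
noncomputable def pm (f : M → M) (δ η : ℝ) (w : ℝ → M) (u : ℝ) : M :=
  LS.seg (f (w (⌊u / η⌋ * δ))) (f (w ((⌊u / η⌋ + 1) * δ))) (Int.fract (u / η))

/-- The modulus of continuity. -/
structure Md (f : M → M) (ρ δ η : ℝ) : Prop where
  δ0 : 0 < δ
  η0 : 0 < η
  ηρ : η < ρ
  md : ∀ x y, dist x y ≤ δ → dist (f x) (f y) ≤ η

theorem Md.step (h : Md f ρ δ η) (hw : Lip w) (i : ℝ) :
    dist (f (w (i * δ))) (f (w ((i + 1) * δ))) ≤ η := by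
  refine h.md _ _ ((hw _ _).trans (le_of_eq ?_))
  rw [← sub_mul, abs_mul, abs_of_pos h.δ0, sub_add_cancel_left, abs_neg, abs_one, one_mul]

theorem Md.step' (h : Md f ρ δ η) (hw : Lip w) (i : ℝ) :
    dist (f (w (i * δ))) (f (w ((i + 1) * δ))) < ρ := (h.step hw i).trans_lt h.ηρ

omit [MetricSpace M] in
theorem floor_aux (hη : 0 < η) (i : ℤ) {v : ℝ} (h0 : 0 ≤ v) (h1 : v < 1) :
    ⌊(i + v) * η / η⌋ = i ∧ Int.fract ((i + v) * η / η) = v := by
  have e : ((i : ℝ) + v) * η / η = i + v := by field_simp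
  rw [e]
  have e1 : ⌊(i : ℝ) + v⌋ = i := by
    rw [Int.floor_eq_iff]
    constructor <;> linarith
  refine ⟨e1, ?_⟩
  rw [← Int.self_sub_floor, e1]
  ring

/-- The values on `[i η, (i + 1) η]`. -/
theorem pm_seg (hη : 0 < η) (i : ℤ) {v : ℝ} (hv : v ∈ Icc (0 : ℝ) 1) :
    pm f δ η w ((i + v) * η) = LS.seg (f (w (i * δ))) (f (w ((i + 1) * δ))) v := by
  rcases hv.2.eq_or_lt with h1 | h1
  · subst h1
    obtain ⟨e1, e2⟩ := floor_aux hη (i + 1) le_rfl zero_lt_one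
    rw [LS.seg_one]
    unfold pm
    have e3 : ((i : ℝ) + 1) * η = (((i + 1 : ℤ) : ℝ) + 0) * η := by push_cast; ring
    rw [e3, e1, e2, LS.seg_zero]
    push_cast
    rfl
  · obtain ⟨e1, e2⟩ := floor_aux hη i hv.1 h1
    unfold pm
    rw [e1, e2]

omit [MetricSpace M] in
/-- Every time is in some interval. -/
theorem exists_iv (hη : 0 < η) (u : ℝ) : ∃ (i : ℤ) (v : ℝ), 0 ≤ v ∧ v < 1 ∧ u = (i + v) * η := by
  refine ⟨⌊u / η⌋, Int.fract (u / η), Int.fract_nonneg _, Int.fract_lt_one _, ?_⟩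
  rw [Int.floor_add_fract]
  field_simp

theorem pm_int (hη : 0 < η) (i : ℤ) : pm f δ η w (i * η) = f (w (i * δ)) := by
  have := pm_seg (f := f) (δ := δ) (w := w) hη i (v := 0) ⟨le_rfl, zero_le_one⟩
  rw [add_zero] at this
  rw [this, LS.seg_zero]

theorem pm_zero (hη : 0 < η) : pm f δ η w 0 = f (w 0) := by
  have := pm_int (f := f) (δ := δ) (w := w) hη 0
  rwa [Int.cast_zero, zero_mul, zero_mul] at this

theorem pm_nat (hη : 0 < η) (N : ℕ) : pm f δ η w (N * η) = f (w (N * δ)) := by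
  have := pm_int (f := f) (δ := δ) (w := w) hη N
  rwa [Int.cast_natCast] at this

/-- Lipschitz on one interval. -/
theorem pm_lip_one (hU : LS.UniqSeg M ρ) (h : Md f ρ δ η) (hw : Lip w) (i : ℤ) {u v : ℝ}
    (hu : (i : ℝ) * η ≤ u) (huv : u ≤ v) (hv : v ≤ (i + 1) * η) :
    dist (pm f δ η w u) (pm f δ η w v) ≤ v - u := by
  have hη := h.η0
  have eu : u = (i + (u / η - i)) * η := by field_simp; ring
  have ev : v = (i + (v / η - i)) * η := by field_simp; ring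
  have h1 : 0 ≤ u / η - i := by rw [sub_nonneg, le_div_iff₀ hη]; exact hu
  have h2 : v / η - i ≤ 1 := by
    have : v / η ≤ i + 1 := by rw [div_le_iff₀ hη]; exact hv
    linarith
  have h3 : u / η - i ≤ v / η - i := by gcongr
  rw [eu, ev, pm_seg hη i ⟨h1, h3.trans h2⟩, pm_seg hη i ⟨h1.trans h3, h2⟩,
    LS.dist_seg_seg_le hU (h.step' hw _) h1 h3 h2]
  have h4 := h.step hw i
  have e : (i + (v / η - i)) * η - (i + (u / η - i)) * η = (v / η - i - (u / η - i)) * η := by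
    ring
  rw [e]
  exact mul_le_mul_of_nonneg_left h4 (by linarith)

/-- The polygonal map preserves the Lipschitz curves. -/
theorem lip_pm (hU : LS.UniqSeg M ρ) (h : Md f ρ δ η) (hw : Lip w) : Lip (pm f δ η w) := by
  have hη := h.η0
  have key : ∀ (n : ℕ) (i : ℤ) (u v : ℝ), (i : ℝ) * η ≤ u → u ≤ v → v ≤ (i + 1 + n) * η →
      dist (pm f δ η w u) (pm f δ η w v) ≤ v - u := by
    intro n
    induction n with
    | zero =>
      intro i u v h1 h2 h3
      exact pm_lip_one hU h hw i h1 h2 (by simpa using h3)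
    | succ n ih =>
      intro i u v h1 h2 h3
      rcases le_total v ((i + 1 + n) * η) with h4 | h4
      · exact ih i u v h1 h2 h4
      rcases le_total ((i + 1 + n) * η) u with h5 | h5
      · refine pm_lip_one hU h hw (i + 1 + n) ?_ h2 ?_
        · push_cast
          exact h5
        · push_cast at h3 ⊢
          linarith
      · have e1 := ih i u _ h1 h5 le_rfl
        have e2 := pm_lip_one hU h hw (i + 1 + n) (u := (i + 1 + n) * η) (v := v)
          (by push_cast; exact le_rfl) h4 (by push_cast at h3 ⊢; linarith)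
        have e3 := dist_triangle (pm f δ η w u) (pm f δ η w ((i + 1 + n) * η)) (pm f δ η w v)
        linarith
  refine lip_of_le fun u v huv => ?_
  obtain ⟨n, hn⟩ := exists_nat_ge (v / η - ⌊u / η⌋)
  refine key n ⌊u / η⌋ u v ?_ huv ?_
  · rw [← le_div_iff₀ hη]
    exact Int.floor_le _
  · rw [← div_le_iff₀ hη]
    linarith

theorem pm_left (h : Md f ρ δ η) (hw : ∀ u ≤ 0, w u = a) (hu : u ≤ 0) :
    pm f δ η w u = f a := by
  obtain ⟨i, v, h0, h1, rfl⟩ := exists_iv h.η0 u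
  have h2 : (i : ℝ) + v ≤ 0 := by
    by_contra h3
    exact absurd hu (not_le.2 (mul_pos (not_le.1 h3) h.η0))
  rw [pm_seg h.η0 i ⟨h0, h1.le⟩]
  have h3 : (i : ℝ) ≤ 0 := by linarith
  rw [hw (i * δ) (mul_nonpos_of_nonpos_of_nonneg h3 h.δ0.le)]
  rcases h3.eq_or_lt with h4 | h4
  · have h5 : v = 0 := by linarith
    rw [h5, LS.seg_zero]
  · have h5 : (i : ℝ) + 1 ≤ 0 := by
      have : i < 0 := by exact_mod_cast h4
      exact_mod_cast this
    rw [hw ((i + 1) * δ) (mul_nonpos_of_nonpos_of_nonneg h5 h.δ0.le), LS.seg_self]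

theorem pm_right (h : Md f ρ δ η) (N : ℕ) (hw : ∀ u, N * δ ≤ u → w u = b) (hu : N * η ≤ u) :
    pm f δ η w u = f b := by
  obtain ⟨i, v, h0, h1, rfl⟩ := exists_iv h.η0 u
  have h2 : (N : ℝ) ≤ i + v := le_of_mul_le_mul_right hu h.η0
  have h3 : (N : ℝ) ≤ i := by
    have h4 : (N : ℝ) < i + 1 := by linarith
    have h5 : (N : ℤ) < i + 1 := by exact_mod_cast h4
    have h6 : (N : ℤ) ≤ i := by omega
    exact_mod_cast h6
  rw [pm_seg h.η0 i ⟨h0, h1.le⟩, hw (i * δ) (mul_le_mul_of_nonneg_right h3 h.δ0.le),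
    hw ((i + 1) * δ) (mul_le_mul_of_nonneg_right (by linarith) h.δ0.le), LS.seg_self]

/-- Only the values at the mesh points matter. -/
theorem pm_congr (hη : 0 < η) (i : ℤ) {v : ℝ} (hv : v ∈ Icc (0 : ℝ) 1) {w' : ℝ → M}
    (h1 : w (i * δ) = w' (i * δ)) (h2 : w ((i + 1) * δ) = w' ((i + 1) * δ)) :
    pm f δ η w ((i + v) * η) = pm f δ η w' ((i + v) * η) := by
  rw [pm_seg hη i hv, pm_seg hη i hv, h1, h2]

/-- Shift by a multiple of the mesh. -/
theorem pm_shift (hη : 0 < η) (N : ℤ) (w : ℝ → M) (u : ℝ) :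
    pm f δ η (fun v => w (v - N * δ)) u = pm f δ η w (u - N * η) := by
  obtain ⟨i, v, h0, h1, rfl⟩ := exists_iv hη u
  have e : ((i : ℝ) + v) * η - N * η = (((i - N : ℤ) : ℝ) + v) * η := by push_cast; ring
  rw [e, pm_seg hη i ⟨h0, h1.le⟩, pm_seg hη (i - N) ⟨h0, h1.le⟩]
  have e1 : (i : ℝ) * δ - N * δ = ((i - N : ℤ) : ℝ) * δ := by push_cast; ring
  have e2 : ((i : ℝ) + 1) * δ - N * δ = (((i - N : ℤ) : ℝ) + 1) * δ := by push_cast; ring
  rw [e1, e2]

/-- Reversal in a time which is a multiple of the mesh. -/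
theorem pm_rev (hU : LS.UniqSeg M ρ) (h : Md f ρ δ η) (hq : Lip q) (N : ℤ) (u : ℝ) :
    pm f δ η (fun v => q (N * δ - v)) u = pm f δ η q (N * η - u) := by
  obtain ⟨i, v, h0, h1, rfl⟩ := exists_iv h.η0 u
  have e : (N : ℝ) * η - ((i : ℝ) + v) * η = (((N - i - 1 : ℤ) : ℝ) + (1 - v)) * η := by
    push_cast; ring
  rw [e, pm_seg h.η0 i ⟨h0, h1.le⟩, pm_seg h.η0 (N - i - 1) ⟨by linarith, by linarith⟩]
  have e1 : (N : ℝ) * δ - i * δ = (((N - i - 1 : ℤ) : ℝ) + 1) * δ := by push_cast; ring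
  have e2 : (N : ℝ) * δ - (i + 1) * δ = ((N - i - 1 : ℤ) : ℝ) * δ := by push_cast; ring
  rw [e1, e2]
  have h3 := LS.seg_symm hU (t := 1 - v) (h.step' hq ((N - i - 1 : ℤ) : ℝ))
    ⟨by linarith, by linarith⟩
  rw [sub_sub_cancel] at h3
  exact h3

/-- **The polygonal map and conjugation.** -/
theorem pm_cj (hU : LS.UniqSeg M ρ) (h : Md f ρ δ η) (hq : Lip q) (K N : ℕ) (h0 : w 0 = q 0)
    (h1 : w (N * δ) = q 0) (u : ℝ) : pm f δ η (cj (K * δ) (N * δ) q w) u =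
      cj (K * η) (N * η) (pm f δ η q) (pm f δ η w) u := by
  have hη := h.η0
  have hδ := h.δ0
  have p0 : pm f δ η w 0 = pm f δ η q 0 := by rw [pm_zero hη, pm_zero hη, h0]
  have p1 : pm f δ η w (N * η) = pm f δ η q 0 := by rw [pm_nat hη, pm_zero hη, h1]
  have hN : (0 : ℝ) ≤ N := Nat.cast_nonneg N
  obtain ⟨i, v, v0, v1, rfl⟩ := exists_iv hη u
  have hv : v ∈ Icc (0 : ℝ) 1 := ⟨v0, v1.le⟩
  rcases lt_or_ge i (K : ℤ) with hi | hi
  · have hi' : (i : ℝ) + 1 ≤ K := by exact_mod_cast hi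
    have c1 : ∀ j : ℝ, j ≤ K → cj (K * δ) (N * δ) q w (j * δ) =
        (fun v => q (((K : ℤ) : ℝ) * δ - v)) (j * δ) := fun j hj => by
      rw [cj_one (mul_le_mul_of_nonneg_right hj hδ.le)]
      simp
    rw [cj_one (mul_le_mul_of_nonneg_right (by linarith) hη.le),
      pm_congr (w' := fun v => q (((K : ℤ) : ℝ) * δ - v)) hη i hv (c1 i (by linarith))
        (c1 (i + 1) hi'), pm_rev hU h hq (K : ℤ)]
    simp
  rcases lt_or_ge i ((K + N : ℕ) : ℤ) with hj | hj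
  · have hi' : (K : ℝ) ≤ i := by exact_mod_cast hi
    have hj' : (i : ℝ) + 1 ≤ K + N := by exact_mod_cast hj
    have c1 : ∀ j : ℝ, (K : ℝ) ≤ j → j ≤ K + N → cj (K * δ) (N * δ) q w (j * δ) =
        (fun v => w (v - ((K : ℤ) : ℝ) * δ)) (j * δ) := fun j hj hj' => by
      rw [cj_two h0 (mul_le_mul_of_nonneg_right hj hδ.le) (by
        rw [← add_mul]
        exact mul_le_mul_of_nonneg_right hj' hδ.le)]
      simp
    rw [cj_two p0 (mul_le_mul_of_nonneg_right (by linarith) hη.le) (by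
        rw [← add_mul]
        exact mul_le_mul_of_nonneg_right (by linarith) hη.le),
      pm_congr (w' := fun v => w (v - ((K : ℤ) : ℝ) * δ)) hη i hv (c1 i hi' (by linarith))
        (c1 (i + 1) (by linarith) hj'), pm_shift hη (K : ℤ)]
    simp
  · have hj' : (K : ℝ) + N ≤ i := by exact_mod_cast hj
    have c1 : ∀ j : ℝ, (K : ℝ) + N ≤ j → cj (K * δ) (N * δ) q w (j * δ) =
        (fun v => q (v - ((K + N : ℕ) : ℤ) * δ)) (j * δ) := fun j hj => by
      rw [cj_three h0 (mul_nonneg hN hδ.le) h1 (by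
        rw [← add_mul]
        exact mul_le_mul_of_nonneg_right hj hδ.le)]
      show _ = q _
      congr 1
      push_cast
      ring
    rw [cj_three p0 (mul_nonneg hN hη.le) p1 (by
        rw [← add_mul]
        exact mul_le_mul_of_nonneg_right (by linarith) hη.le),
      pm_congr (w' := fun v => q (v - ((K + N : ℕ) : ℤ) * δ)) hη i hv (c1 i hj')
        (c1 (i + 1) (by linarith)), pm_shift hη ((K + N : ℕ) : ℤ)]
    congr 1
    push_cast
    ring

/-- **The polygonal map and left concatenation.** -/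
theorem pm_lj (hU : LS.UniqSeg M ρ) (h : Md f ρ δ η) (hq : Lip q) (K : ℕ) (h0 : w 0 = q 0)
    (u : ℝ) : pm f δ η (lj (K * δ) q w) u = lj (K * η) (pm f δ η q) (pm f δ η w) u := by
  have hη := h.η0
  have hδ := h.δ0
  have p0 : pm f δ η w 0 = pm f δ η q 0 := by rw [pm_zero hη, pm_zero hη, h0]
  obtain ⟨i, v, v0, v1, rfl⟩ := exists_iv hη u
  have hv : v ∈ Icc (0 : ℝ) 1 := ⟨v0, v1.le⟩
  rcases lt_or_ge i (K : ℤ) with hi | hi
  · have hi' : (i : ℝ) + 1 ≤ K := by exact_mod_cast hi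
    have c1 : ∀ j : ℝ, j ≤ K → lj (K * δ) q w (j * δ) =
        (fun v => q (((K : ℤ) : ℝ) * δ - v)) (j * δ) := fun j hj => by
      rw [lj_left (mul_le_mul_of_nonneg_right hj hδ.le)]
      simp
    rw [lj_left (mul_le_mul_of_nonneg_right (by linarith) hη.le),
      pm_congr (w' := fun v => q (((K : ℤ) : ℝ) * δ - v)) hη i hv (c1 i (by linarith))
        (c1 (i + 1) hi'), pm_rev hU h hq (K : ℤ)]
    simp
  · have hi' : (K : ℝ) ≤ i := by exact_mod_cast hi
    have c1 : ∀ j : ℝ, (K : ℝ) ≤ j → lj (K * δ) q w (j * δ) =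
        (fun v => w (v - ((K : ℤ) : ℝ) * δ)) (j * δ) := fun j hj => by
      rw [lj_right h0 (mul_le_mul_of_nonneg_right hj hδ.le)]
      simp
    rw [lj_right p0 (mul_le_mul_of_nonneg_right (by linarith) hη.le),
      pm_congr (w' := fun v => w (v - ((K : ℤ) : ℝ) * δ)) hη i hv (c1 i hi')
        (c1 (i + 1) (by linarith)), pm_shift hη (K : ℤ)]
    simp

end pm

/-! ### The map on the path spaces -/

section R

variable {M : Type*} [MetricSpace M] [CompactSpace M] {f : M → M} {ρ δ η t : ℝ} {a b x₀ : M}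
  {w : ℝ →ᵇ M}

/-- The polygonal map. -/
noncomputable def Rm (f : M → M) (δ η : ℝ) (w : ℝ →ᵇ M) : ℝ →ᵇ M := mo (pm f δ η w)

/-- The change of level. -/
noncomputable def ph (δ η t : ℝ) : ℝ := η / δ * (t + δ)

theorem Rm_apply (hU : LS.UniqSeg M ρ) (h : Md f ρ δ η) (hw : Lip w) (u : ℝ) :
    Rm f δ η w u = pm f δ η w u := (lip_pm hU h hw).mo_apply u

omit [MetricSpace M] [CompactSpace M] in
theorem ceil_aux (hδ : 0 < δ) (hη : 0 < η) (ht : 0 ≤ t) :
    t ≤ (⌈t / δ⌉₊ : ℝ) * δ ∧ (⌈t / δ⌉₊ : ℝ) * η ≤ ph δ η t := by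
  constructor
  · rw [← div_le_iff₀ hδ]
    exact Nat.le_ceil _
  · have h1 := Nat.ceil_lt_add_one (div_nonneg ht hδ.le)
    have e : ph δ η t = (t / δ + 1) * η := by
      unfold ph
      field_simp
    rw [e]
    exact mul_le_mul_of_nonneg_right h1.le hη.le

theorem Rm_lip (hU : LS.UniqSeg M ρ) (h : Md f ρ δ η) (hw : Lip w) : Lip (Rm f δ η w) := by
  intro u v
  rw [Rm_apply hU h hw, Rm_apply hU h hw]
  exact lip_pm hU h hw u v

theorem Rm_left (hU : LS.UniqSeg M ρ) (h : Md f ρ δ η) (hw : Lip w) (hw' : ∀ u ≤ 0, w u = w 0)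
    {u : ℝ} (hu : u ≤ 0) : Rm f δ η w u = f (w 0) := by
  rw [Rm_apply hU h hw]
  exact pm_left h hw' hu

theorem Rm_right (hU : LS.UniqSeg M ρ) (h : Md f ρ δ η) (hw : Lip w) (N : ℕ)
    (hw' : ∀ u, N * δ ≤ u → w u = b) {u : ℝ} (hu : N * η ≤ u) : Rm f δ η w u = f b := by
  rw [Rm_apply hU h hw]
  exact pm_right h N hw' hu

theorem Rm_P_N (hU : LS.UniqSeg M ρ) (h : Md f ρ δ η) (N : ℕ) (hw : w ∈ P a b (N * δ)) :
    Rm f δ η w ∈ P (f a) (f b) (N * η) := by
  refine ⟨Rm_lip hU h hw.1, fun u hu => ?_, fun u hu => ?_⟩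
  · rw [Rm_left hU h hw.1 (fun u hu => by rw [eq_left hw hu, eq_left hw le_rfl]) hu,
      eq_left hw le_rfl]
  · exact Rm_right hU h hw.1 N (fun u hu => eq_right hw hu) hu

theorem Rm_P (hU : LS.UniqSeg M ρ) (h : Md f ρ δ η) (ht : 0 ≤ t) (hw : w ∈ P a b t) :
    Rm f δ η w ∈ P (f a) (f b) (ph δ η t) := by
  obtain ⟨h1, h2⟩ := ceil_aux h.δ0 h.η0 ht
  exact P_mono h2 (Rm_P_N hU h _ (P_mono h1 hw))

theorem Rm_zero (hU : LS.UniqSeg M ρ) (h : Md f ρ δ η) (hw : Lip w) : Rm f δ η w 0 = f (w 0) := by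
  rw [Rm_apply hU h hw, pm_zero h.η0]

theorem Rm_FL_N (hU : LS.UniqSeg M ρ) (h : Md f ρ δ η) (N : ℕ) (hw : w ∈ FL M (N * δ)) :
    Rm f δ η w ∈ FL M (N * η) := by
  have h1 := Rm_P_N hU h N (mem_FL_iff.1 hw)
  exact P_subset_FL h1

theorem Rm_FL (hU : LS.UniqSeg M ρ) (h : Md f ρ δ η) (ht : 0 ≤ t) (hw : w ∈ FL M t) :
    Rm f δ η w ∈ FL M (ph δ η t) := P_subset_FL (Rm_P hU h ht (mem_FL_iff.1 hw))

theorem Rm_PF (hU : LS.UniqSeg M ρ) (h : Md f ρ δ η) (hf : f x₀ = x₀) (ht : 0 ≤ t)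
    (hw : w ∈ PF x₀ t) : Rm f δ η w ∈ PF x₀ (ph δ η t) := by
  have := Rm_P hU h ht (mem_PF_iff.1 hw)
  rw [hf] at this
  exact P_subset_PF this

theorem ph_nonneg (h : Md f ρ δ η) (ht : 0 ≤ t) : 0 ≤ ph δ η t :=
  mul_nonneg (div_nonneg h.η0.le h.δ0.le) (add_nonneg ht h.δ0.le)

/-- Continuity of the polygonal map. -/
theorem continuousOn_Rm (hU : LS.UniqSeg M ρ) (hf : Continuous f) (h : Md f ρ δ η) (ht : 0 ≤ t) :
    ContinuousOn (Rm f δ η) (PP M t) := by
  refine continuousOn_of_eval (t := ph δ η t) (ph_nonneg h ht) (fun w hw => ?_) fun u => ?_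
  · exact P_subset_PP (Rm_P hU h ht (mem_P_of_PP hw))
  · refine ContinuousOn.congr (f := fun w : ℝ →ᵇ M => pm f δ η w u) ?_ fun w hw =>
      Rm_apply hU h hw.1 u
    unfold pm
    refine LS.ContinuousOn.seg hU ?_ ?_ continuousOn_const (fun w hw => ?_) fun w hw =>
      ⟨Int.fract_nonneg _, (Int.fract_lt_one _).le⟩
    · exact hf.comp_continuousOn (continuousOn_eval continuousOn_id continuousOn_const)
    · exact hf.comp_continuousOn (continuousOn_eval continuousOn_id continuousOn_const)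
    · exact h.step' hw.1 _

/-- Closeness. -/
theorem dist_Rm_le (hU : LS.UniqSeg M ρ) (h : Md f ρ δ η) (hw : Lip w) (u : ℝ) :
    dist (Rm f δ η w (η / δ * u)) (f (w u)) ≤ 2 * η := by
  have hη := h.η0
  have hδ := h.δ0
  obtain ⟨i, v, v0, v1, rfl⟩ := exists_iv hδ u
  have hv : v ∈ Icc (0 : ℝ) 1 := ⟨v0, v1.le⟩
  have e : η / δ * ((i + v) * δ) = (i + v) * η := by field_simp
  rw [e, Rm_apply hU h hw, pm_seg hη i hv]
  have h1 := h.step hw i
  have h2 : dist (f (w (i * δ))) (f (w ((i + v) * δ))) ≤ η := by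
    refine h.md _ _ ((hw _ _).trans ?_)
    rw [← sub_mul, abs_mul, abs_of_pos hδ, sub_add_cancel_left, abs_neg, abs_of_nonneg v0]
    exact mul_le_of_le_one_left hδ.le v1.le
  have h3 := LS.dist_left_seg hU (h.step' hw i) hv
  have h4 : v * dist (f (w (i * δ))) (f (w ((i + 1) * δ))) ≤ η :=
    (mul_le_of_le_one_left dist_nonneg v1.le).trans h1
  have h5 := dist_triangle_left (LS.seg (f (w (i * δ))) (f (w ((i + 1) * δ))) v)
    (f (w ((i + v) * δ))) (f (w (i * δ)))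
  linarith

/-- The modulus of continuity exists, and `δ` can be chosen as a divisor of a given time. -/
theorem exists_md (hf : Continuous f) (hρ : 0 < ρ) {ε : ℝ} (hε : 0 < ε) {ℓ : ℝ} (hℓ : 0 < ℓ) :
    ∃ δ η : ℝ, Md f ρ δ η ∧ η ≤ ε ∧ ∃ K : ℕ, 0 < K ∧ ℓ = K * δ := by
  have huc : UniformContinuous f := CompactSpace.uniformContinuous_of_continuous hf
  obtain ⟨δ₀, hδ₀, H⟩ := Metric.uniformContinuous_iff.1 huc (min (ρ / 2) ε)
    (lt_min (by positivity) hε)
  obtain ⟨K, hK⟩ := exists_nat_gt (ℓ / δ₀)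
  have hK0 : (0 : ℝ) < K := (div_pos hℓ hδ₀).trans hK
  have h1 : ℓ / K < δ₀ := by
    rw [div_lt_iff₀ hK0]
    rw [div_lt_iff₀ hδ₀] at hK
    linarith
  refine ⟨ℓ / K, min (ρ / 2) ε, ⟨by positivity, lt_min (by positivity) hε,
    (min_le_left _ _).trans_lt (by linarith), fun x y hxy => (H (hxy.trans_lt h1)).le⟩,
    min_le_right _ _, K, by exact_mod_cast hK0, by field_simp⟩

end R

end Vale.Agent.P216.H971
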