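import Vale.Agent.P216.H971.RD
import Vale.Agent.P216.R337.G3

/-!
# P216-B, B45 [RHO], topology: [R-D] assembled
-/

set_option linter.unusedVariables false

open Set BoundedContinuousFunction

namespace Vale.Agent.P216.H971

open Vale.Agent.P216.AS Vale.Agent.P216.H901 Vale.Agent.P216.PS Vale.Agent.P216.MV337
open Vale.Agent.P216.B64 Vale.Agent.P216.H456 Vale.Agent.P216.H388

/-- **[R-D]** -/
theorem stRD : StRD := by
  intro m hm M _ _ ρ hρ hU hM
  obtain ⟨x₀, C, ℓ, Tp, Tm, hp, hm', η, δ, h, h3, h4, h5⟩ :=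
    R337.exists_trivMaps (by omega) hρ hU hM
  have hη := h.η0
  exact ⟨x₀, C.toCaps, ℓ, Tp, Tm, hp, hm', ⟨C.f, C.f_cont⟩, lvl η δ, apx C.f δ η, δ, η / δ, 2 * η,
    C.f_x₀, h4, h5, by linarith, mooreMap h⟩

end Vale.Agent.P216.H971
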