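import Vale.Agent.P216.H539.RG
import Vale.Agent.P216.H971.RDEnd
import Vale.Agent.P216.H901.WangRho

/-!
# P216-B, R2: `XRhoGoal` from `OmegaGoal0`
-/

set_option linter.unusedVariables false

namespace Vale.Agent.P216.H971

open Vale.Agent.P216.B64 Vale.Agent.P216.H754B

/-- **R2**: the topology side of [RHO]; only the loop space of a sphere is left. -/
theorem xRhoGoal_of_omega (hO : OmegaGoal0) : XRhoGoal :=
  ToXL.xRhoGoal_of hO H901.stWangF stRD

end Vale.Agent.P216.H971
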